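import Vale.Agent.P046.Limit.Defs

/-!
P046, the limit constant, module Short: a point whose branches meet lies on a chain of blocks which
closes up and spans exactly two points per block.
-/

open Finset

namespace Vale.Agent.P046.Limit.A2

variable {ι : Type*} [DecidableEq ι]

/-- A chain from a block at `i` to another block at `i` with `q` blocks in between avoiding `i`. -/
structure Walk (H : Finset (Finset ι)) (i : ι) (q : ℕ) (f : ℕ → Finset ι) : Prop where
  pos : 1 ≤ q
  mem : ∀ l ≤ q + 1, f l ∈ H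
  first : i ∈ f 0
  last : i ∈ f (q + 1)
  ne : f 0 ≠ f (q + 1)
  avoid : ∀ l, 1 ≤ l → l ≤ q → i ∉ f l
  meet : ∀ l ≤ q, ¬Disjoint (f l) (f (l + 1))

theorem branch_path {H : Finset (Finset ι)} {i : ι} {j a : Finset ι} {R : ℕ}
    (h : a ∈ branch H i j R) :
    ∃ r ≤ R, ∃ g : ℕ → Finset ι, g 0 = j ∧ g r = a ∧
      (∀ l, 1 ≤ l → l ≤ r → g l ∈ H ∧ i ∉ g l) ∧ ∀ l < r, ¬Disjoint (g l) (g (l + 1)) := by
  induction R generalizing a with
  | zero =>
    rw [branch, mem_singleton] at h
    exact ⟨0, le_rfl, fun _ => j, rfl, h.symm, fun l h1 h2 => by omega, fun l hl => by omega⟩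
  | succ R ih =>
    rw [branch, mem_union, mem_filter] at h
    rcases h with h | ⟨ha, hi, k, hk, hak⟩
    · obtain ⟨r, hr, g, h0, h1, h2, h3⟩ := ih h
      exact ⟨r, hr.trans R.le_succ, g, h0, h1, h2, h3⟩
    · obtain ⟨r, hr, g, h0, h1, h2, h3⟩ := ih hk
      refine ⟨r + 1, Nat.succ_le_succ hr, fun l => if l ≤ r then g l else a, ?_, ?_, ?_, ?_⟩
      · simp [h0]
      · simp
      · intro l hl hl'
        dsimp only
        split_ifs with hlr
        · exact h2 l hl hlr
        · exact ⟨ha, hi⟩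
      · intro l hl
        dsimp only
        rw [if_pos (show l ≤ r by omega)]
        split_ifs with hlr
        · exact h3 l (by omega)
        · obtain rfl : l = r := by omega
          rw [h1]
          exact fun hd => hak hd.symm

theorem exists_walk {H : Finset (Finset ι)} {L : ℕ} {i : ι} (h : ¬GoodAt H L i) :
    ∃ q ≤ 2 * L, ∃ f, Walk H i q f := by
  rw [GoodAt] at h
  push Not at h
  obtain ⟨j, hj, j', hj', hne, hd⟩ := h
  obtain ⟨hjH, hij⟩ := mem_filter.1 hj
  obtain ⟨hjH', hij'⟩ := mem_filter.1 hj'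
  obtain ⟨a, ha, ha'⟩ := not_disjoint_iff.1 hd
  obtain ⟨r, hr, g, g0, gr, gm, gc⟩ := branch_path ha
  obtain ⟨r', hr', g', g0', gr', gm', gc'⟩ := branch_path ha'
  have pos : ∀ {r r' : ℕ} {g g' : ℕ → Finset ι} {j j' : Finset ι}, j ≠ j' → i ∈ j → g 0 = j →
      g' 0 = j' → g r = g' r' → (∀ l, 1 ≤ l → l ≤ r' → g' l ∈ H ∧ i ∉ g' l) → 1 ≤ r := by
    intro r r' g g' j j' hne hi e e' he hm
    by_contra hc
    obtain rfl : r = 0 := by omega
    rcases Nat.eq_zero_or_pos r' with rfl | hp
    · exact hne (e.symm.trans (he.trans e'))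
    · exact (hm r' hp le_rfl).2 (he ▸ e.symm ▸ hi)
  have hr1 : 1 ≤ r := pos hne hij g0 g0' (gr.trans gr'.symm) gm'
  have hr1' : 1 ≤ r' := pos (Ne.symm hne) hij' g0' g0 (gr'.trans gr.symm) gm
  refine ⟨r + r' - 1, by omega, fun l => if l ≤ r then g l else g' (r + r' - l),
    ⟨by omega, ?_, ?_, ?_, ?_, ?_, ?_⟩⟩
  · intro l hl
    split_ifs with h
    · rcases Nat.eq_zero_or_pos l with rfl | hp
      · exact g0 ▸ hjH
      · exact (gm l hp h).1
    · rcases Nat.eq_zero_or_pos (r + r' - l) with h' | hp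
      · exact h' ▸ g0' ▸ hjH'
      · exact (gm' _ hp (by omega)).1
  · simpa [g0] using hij
  · rw [if_neg (by omega), show r + r' - (r + r' - 1 + 1) = 0 by omega, g0']
    exact hij'
  · rw [if_pos (Nat.zero_le _), if_neg (by omega),
      show r + r' - (r + r' - 1 + 1) = 0 by omega, g0, g0']
    exact hne
  · intro l h1 hl
    split_ifs with h
    · exact (gm l h1 h).2
    · exact (gm' _ (by omega) (by omega)).2
  · intro l hl
    split_ifs with h h' h'
    · exact gc l (by omega)
    · obtain rfl : l = r := by omega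
      rw [gr, ← gr', show l + r' - (l + 1) = r' - 1 by omega]
      have := gc' (r' - 1) (by omega)
      rw [show r' - 1 + 1 = r' by omega] at this
      exact fun hd => this hd.symm
    · omega
    · have := gc' (r + r' - (l + 1)) (by omega)
      rw [show r + r' - (l + 1) + 1 = r + r' - l by omega] at this
      exact fun hd => this hd.symm

/-- A chain which closes up. -/
structure Ring (H : Finset (Finset ι)) (i : ι) (q : ℕ) (f : ℕ → Finset ι) (x : ℕ → ι) : Prop where
  mem : ∀ l ≤ q + 1, f l ∈ H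
  start : x 0 = i
  left : ∀ l ≤ q + 1, x l ∈ f l
  right : ∀ l ≤ q, x (l + 1) ∈ f l
  close : x 0 ∈ f (q + 1)
  ne : ∀ l ≤ q, x l ≠ x (l + 1)
  ne_close : x (q + 1) ≠ x 0
  card : ((range (q + 2)).biUnion f).card = 2 * q + 4
  meet : ∀ l ≤ q, ¬Disjoint (f l) (f (l + 1))

theorem exists_ring {H : Finset (Finset ι)} (h3 : ∀ k ∈ H, k.card = 3)
    (hlin : ∀ k ∈ H, ∀ j ∈ H, k ≠ j → (k ∩ j).card ≤ 1) {L : ℕ} {i : ι} (h : ¬GoodAt H L i) :
    ∃ q ≤ 2 * L, ∃ f x, Ring H i q f x := by
  classical
  obtain ⟨q₀, hq₀, f₀, hf₀⟩ := exists_walk h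
  have hex : ∃ q, ∃ f, Walk H i q f := ⟨q₀, f₀, hf₀⟩
  set q := Nat.find hex with hq
  obtain ⟨f, hw⟩ := Nat.find_spec hex
  rw [← hq] at hw
  have far : ∀ a b, a + 2 ≤ b → b ≤ q + 1 → ¬(a = 0 ∧ b = q + 1) → Disjoint (f a) (f b) := by
    intro a b hab hb hno
    by_contra hm
    refine Nat.find_min hex (show q - (b - a - 1) < q by omega)
      ⟨fun l => if l ≤ a then f l else f (l + (b - a - 1)), ⟨by omega, ?_, ?_, ?_, ?_, ?_, ?_⟩⟩
    · intro l hl
      split_ifs <;> exact hw.mem _ (by omega)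
    · simpa using hw.first
    · rw [if_neg (by omega), show q - (b - a - 1) + 1 + (b - a - 1) = q + 1 by omega]
      exact hw.last
    · rw [if_pos (Nat.zero_le _), if_neg (by omega),
        show q - (b - a - 1) + 1 + (b - a - 1) = q + 1 by omega]
      exact hw.ne
    · intro l h1 hl
      split_ifs <;> exact hw.avoid _ (by omega) (by omega)
    · intro l hl
      split_ifs with h h' h'
      · exact hw.meet l (by omega)
      · obtain rfl : l = a := by omega
        rwa [show l + 1 + (b - l - 1) = b by omega]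
      · omega
      · rw [show l + 1 + (b - a - 1) = l + (b - a - 1) + 1 by omega]
        exact hw.meet _ (by omega)
  have hne : ∀ l ≤ q, f l ≠ f (l + 1) := by
    intro l hl e
    rcases Nat.eq_zero_or_pos l with rfl | hp
    · exact hw.avoid 1 le_rfl hw.pos (e ▸ hw.first)
    rcases Nat.lt_or_ge l q with hlq | hlq
    · refine hw.meet (l + 1) (by omega) ?_
      rw [← e]
      exact far l (l + 1 + 1) (by omega) (by omega) (by omega)
    · obtain rfl : l = q := by omega
      exact hw.avoid q hp le_rfl (e.symm ▸ hw.last)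
  have one : ∀ l ≤ q, (f l ∩ f (l + 1)).card = 1 := fun l hl =>
    le_antisymm (hlin _ (hw.mem l (by omega)) _ (hw.mem _ (by omega)) (hne l hl))
      (card_pos.2 (not_disjoint_iff_nonempty_inter.1 (hw.meet l hl)))
  have hends : f 0 ∩ f (q + 1) = {i} := by
    refine eq_singleton_iff_unique_mem.2 ⟨mem_inter.2 ⟨hw.first, hw.last⟩, fun y hy => ?_⟩
    exact card_le_one.1 (hlin _ (hw.mem 0 (by omega)) _ (hw.mem _ le_rfl) hw.ne) y hy i
      (mem_inter.2 ⟨hw.first, hw.last⟩)
  set x : ℕ → ι := fun l => if hl : 1 ≤ l ∧ l ≤ q + 1 then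
    (card_pos.1 ((one (l - 1) (by omega)).symm ▸ Nat.one_pos)).choose else i with hx
  have xmem : ∀ l ≤ q, x (l + 1) ∈ f l ∩ f (l + 1) := fun l hl => by
    simp only [hx]
    rw [dif_pos ⟨by omega, by omega⟩]
    exact (card_pos.1 ((one l hl).symm ▸ Nat.one_pos)).choose_spec
  have x0 : x 0 = i := by simp [hx]
  have left : ∀ l ≤ q + 1, x l ∈ f l := fun l hl => by
    rcases l with _ | l
    · exact x0.symm ▸ hw.first
    · exact (mem_inter.1 (xmem l (by omega))).2
  have right : ∀ l ≤ q, x (l + 1) ∈ f l := fun l hl => (mem_inter.1 (xmem l hl)).1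
  have hlast : x (q + 1) ≠ x 0 := fun e => by
    have := right q le_rfl
    rw [e, x0] at this
    exact hw.avoid q hw.pos le_rfl this
  refine ⟨q, (Nat.find_min' hex ⟨f₀, hf₀⟩).trans hq₀, f, x,
    ⟨hw.mem, x0, left, right, x0.symm ▸ hw.last, ?_, hlast, ?_, hw.meet⟩⟩
  · intro l hl e
    rcases l with _ | l
    · refine hw.avoid 1 le_rfl hw.pos ?_
      rw [← x0, e]
      exact left 1 (by omega)
    · have m1 : x (l + 1) ∈ f l := right l (by omega)
      have m2 : x (l + 1) ∈ f (l + 2) := e ▸ left (l + 1 + 1) (by omega)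
      by_cases hend : l = 0 ∧ l + 2 = q + 1
      · obtain ⟨rfl, hq1⟩ := hend
        rw [hq1] at m2
        have hh : x (0 + 1) = i := mem_singleton.1 (hends ▸ mem_inter.2 ⟨m1, m2⟩)
        exact hw.avoid 1 le_rfl hw.pos (hh ▸ left (0 + 1) (by omega))
      · exact disjoint_left.1 (far l (l + 2) (by omega) (by omega) hend) m1 m2
  · set U : ℕ → Finset ι := fun l => (range (l + 1)).biUnion f with hU
    have hs : ∀ l, U (l + 1) = U l ∪ f (l + 1) := fun l => by
      simp only [hU]
      rw [range_add_one (n := l + 1), biUnion_insert, union_comm]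
    have hc : ∀ l ≤ q, (U l).card = 3 + 2 * l := by
      intro l hl
      induction l with
      | zero => simp [hU, h3 _ (hw.mem 0 (by omega))]
      | succ l ih =>
        have hi : U l ∩ f (l + 1) = f l ∩ f (l + 1) := by
          ext y
          simp only [hU, mem_inter, mem_biUnion, mem_range]
          refine ⟨fun ⟨⟨l', hl', hy⟩, hy'⟩ => ⟨?_, hy'⟩, fun ⟨hy, hy'⟩ => ⟨⟨l, by omega, hy⟩, hy'⟩⟩
          rcases Nat.lt_or_ge l' l with hlt | hge
          · exact absurd hy' (disjoint_left.1 (far l' (l + 1) (by omega) (by omega) (by omega)) hy)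
          · exact (show l' = l by omega) ▸ hy
        have := card_union_add_card_inter (U l) (f (l + 1))
        rw [← hs, hi, one l (by omega), ih (by omega), h3 _ (hw.mem _ (by omega))] at this
        omega
    have hi : U q ∩ f (q + 1) = {x 0, x (q + 1)} := by
      ext y
      simp only [hU, mem_inter, mem_biUnion, mem_range, mem_insert, mem_singleton]
      constructor
      · rintro ⟨⟨l, hl, hy⟩, hy'⟩
        rcases Nat.eq_zero_or_pos l with rfl | hp
        · exact .inl (x0.symm ▸ mem_singleton.1 (hends ▸ mem_inter.2 ⟨hy, hy'⟩))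
        rcases Nat.lt_or_ge l q with hlt | hge
        · exact absurd hy' (disjoint_left.1 (far l (q + 1) (by omega) le_rfl (by omega)) hy)
        · obtain rfl : l = q := by omega
          exact .inr (card_le_one.1 (one q le_rfl).le y (mem_inter.2 ⟨hy, hy'⟩) _ (xmem q le_rfl))
      · rintro (rfl | rfl)
        · exact ⟨⟨0, by omega, x0.symm ▸ hw.first⟩, x0.symm ▸ hw.last⟩
        · exact ⟨⟨q, by omega, right q le_rfl⟩, left _ le_rfl⟩
    have := card_union_add_card_inter (U q) (f (q + 1))
    rw [← hs, hi, card_pair (Ne.symm hlast), hc q le_rfl, h3 _ (hw.mem _ le_rfl)] at this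
    simp only [hU] at this ⊢
    rw [show q + 2 = q + 1 + 1 from rfl]
    omega

end Vale.Agent.P046.Limit.A2
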