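import Vale.Agent.P046.Limit.Stop
import Vale.Agent.P046.Sharp.Cert

/-!
P046, the limit constant, module Short/Tail: supersolutions of the stopped process on an enriched
state, and the absorber which pays for every source of the order of the margin of the penalty.
-/

open Finset Filter

namespace Vale.Agent.P046.Limit.A2

variable {α : Type*} [DecidableEq α] [Fintype α]

/-- A supersolution which may remember more than the state bounds the stopped expectation. -/
theorem stopE_le_of_aux {β : Type*} {D : ℝ}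
    {F : Finset (Finset α) → Finset (Finset α) → ℝ → (Finset α → ℝ) → ℝ}
    (nxt : Finset (Finset α) → ℝ → β → Finset α → β)
    {I : Finset (Finset α) → Finset (Finset α) → ℝ → (Finset α → ℝ) → β → Prop}
    {S : Finset (Finset α) → Finset (Finset α) → ℝ → (Finset α → ℝ) → β → ℝ}
    (hI : ∀ G B Y w x, I G B Y w x → Go D G Y → ∀ t ∈ tri G,
      I (G \ sides t) (Sharp.nextB G B Y t) (Sharp.nextY G Y) (Sharp.nextW G B Y w t) (nxt G Y x t))
    (hgo : ∀ G B Y w x, I G B Y w x → Go D G Y →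
      ∑ t ∈ tri G, S (G \ sides t) (Sharp.nextB G B Y t) (Sharp.nextY G Y)
        (Sharp.nextW G B Y w t) (nxt G Y x t) ≤ Sharp.triNum G * S G B Y w x)
    (hstop : ∀ G B Y w x, I G B Y w x → ¬Go D G Y → F G B Y w ≤ S G B Y w x) :
    ∀ G B Y w x, I G B Y w x → stopE D F G B Y w ≤ S G B Y w x := by
  intro G
  induction h : G.card using Nat.strong_induction_on generalizing G with
  | _ m ih =>
    intro B Y w x hG
    by_cases hg : Go D G Y
    · have hQ : (0 : ℝ) < Sharp.triNum G := by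
        rw [Sharp.triNum]; exact_mod_cast hg.2.2.card_pos
      rw [stopE_go hg, div_le_iff₀' hQ]
      refine le_trans (sum_le_sum fun t ht => ?_) (hgo G B Y w x hG hg)
      exact ih _ (h ▸ card_removed_lt ht) _ rfl _ _ _ _ (hI G B Y w x hG hg t ht)
    · rw [stopE_stop hg]; exact hstop G B Y w x hG hg

/-- The potentials in the margin of the penalty. -/
noncomputable def marg (G : Finset (Finset α)) (Y : ℝ) (w : Finset α → ℝ) : ℝ :=
  Real.sqrt Y * Sharp.cap Y * (Sharp.psi G Y w + Sharp.sq G w)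

/-- The source of the penalty. -/
noncomputable def src (G : Finset (Finset α)) (Y : ℝ) : ℝ :=
  (G.card : ℝ) * Sharp.cap Y / Real.sqrt Y

/-- What the absorber pays in one step, times the number of triangles. -/
noncomputable def bud (G : Finset (Finset α)) (Y : ℝ) (w : Finset α → ℝ) : ℝ :=
  2 * Y * (marg G Y w + src G Y)

/-- A potential which pays the budget at every step, from `C √D n^{3/2}`. -/
structure Absorber (n : ℕ) (D C : ℝ)
    (Ab : Finset (Finset (Fin n)) → Finset (Finset (Fin n)) → ℝ → (Finset (Fin n) → ℝ) → ℝ) :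
    Prop where
  step : ∀ G B Y w, Inv n D G B Y w → Go D G Y →
    ∑ t ∈ tri G, Ab (G \ sides t) (Sharp.nextB G B Y t) (Sharp.nextY G Y)
      (Sharp.nextW G B Y w t) + bud G Y w ≤ Sharp.triNum G * Ab G B Y w
  nonneg : ∀ G B Y w, Inv n D G B Y w → 0 ≤ Ab G B Y w
  start : Ab (complete n) ∅ ((n : ℝ) - 2) (fun _ => 0) ≤ C * Real.sqrt D * ((n : ℝ) * Real.sqrt n)

theorem dense_of_go {n : ℕ} {D : ℝ} (hD : 10 ^ 9 ≤ D) (hc : Sharp.cap D ≤ 1 / 1000)
    {G B : Finset (Finset (Fin n))} {Y : ℝ} {w : Finset (Fin n) → ℝ} (h : Inv n D G B Y w)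
    (hg : Go D G Y) : Sharp.Dense G B Y w :=
  ⟨h.1, by linarith [hg.1], (Sharp.cap_anti (by linarith) hg.1.le).trans hc, hg.2.1, hg.2.2⟩

theorem zeta_start {n : ℕ} (hn : 4 ≤ n) {e : Finset (Fin n)} (he : e ∈ complete n) :
    zeta (complete n) ((n : ℝ) - 2) e = 1 := by
  have h4 : (4 : ℝ) ≤ n := by exact_mod_cast hn
  rw [zeta, deg_complete he, Nat.cast_sub (by omega), Nat.cast_ofNat, div_self]
  linarith

theorem inv_start {n : ℕ} {D : ℝ} (hD : 0 ≤ D) (hn : D + 4 ≤ n) :
    Inv n D (complete n) ∅ ((n : ℝ) - 2) (fun _ => 0) := by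
  have h4 : 4 ≤ n := by
    have : ((4 : ℕ) : ℝ) ≤ n := by push_cast; linarith
    exact_mod_cast this
  refine ⟨⟨fun e he _ => ?_, fun e => ?_⟩, Subset.rfl, by linarith, by linarith⟩
  · rw [zeta_start h4 he]; norm_num
  · rw [abs_zero]
    exact mul_nonneg (by norm_num) (Sharp.cap_pos (by linarith)).le

theorem card_complete_le (n : ℕ) : ((complete n).card : ℝ) ≤ (n : ℝ) ^ 2 / 2 := by
  rw [complete, card_powersetCard, card_univ, Fintype.card_fin, Nat.cast_choose_two]
  have : (0 : ℝ) ≤ n := Nat.cast_nonneg _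
  linarith

/-- The absorber, from the certificate. -/
theorem exists_absorber : ∃ C D₀ : ℝ, 0 ≤ C ∧
    (∀ D, D₀ ≤ D → 10 ^ 9 ≤ D ∧ Sharp.cap D ≤ 1 / 1000 ∧
      10 ^ 6 ≤ Real.sqrt D * Sharp.cap D) ∧
    ∀ D, D₀ ≤ D → ∀ᶠ n : ℕ in atTop, ∃ Ab, Absorber n D C Ab := by
  obtain ⟨K, C, hC, h⟩ := Sharp.certified
  set C' : ℝ := 2 * C + 1 with hC'
  set A : ℝ := 150 * C' with hA
  have ev : ∀ᶠ D : ℝ in atTop, (10 ^ 9 ≤ D ∧ Sharp.cap D ≤ 1 / 1000 ∧
      10 ^ 6 ≤ Real.sqrt D * Sharp.cap D) ∧ Sharp.UParams K D C' A := by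
    have c1 : ∀ a : ℝ, ∀ᶠ x : ℝ in atTop, a ≤ Real.sqrt x * Sharp.cap x := fun a => by
      filter_upwards [(tendsto_rpow_atTop (show (0 : ℝ) < 12 / 25 by norm_num)).eventually_ge_atTop a,
        eventually_gt_atTop 0] with x hx h0
      rwa [Sharp.sqrt_cap_eq h0]
    have c2 : ∀ a : ℝ, ∀ᶠ x : ℝ in atTop, a * Sharp.cap x ≤ 1 / 1000 := fun a => by
      have := (tendsto_rpow_neg_atTop (show (0 : ℝ) < 1 / 50 by norm_num)).const_mul a
      rw [mul_zero] at this
      exact this.eventually_le_const (by norm_num)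
    have hhalf : Tendsto (fun x : ℝ => x / 2) atTop atTop := tendsto_id.atTop_div_const two_pos
    filter_upwards [eventually_ge_atTop (10 ^ 9 : ℝ), eventually_ge_atTop (2 * K), c2 1, c1 (10 ^ 6),
      hhalf.eventually (c2 A), hhalf.eventually (c1 (600 * C'))] with D h9 hK h1 h6 hsm hb
    exact ⟨⟨h9, by linarith, h6⟩, by linarith, by linarith, by rw [hC']; linarith, le_rfl,
      hsm.trans (by norm_num), hb⟩
  obtain ⟨D₀, hD₀⟩ := eventually_atTop.1 ev
  refine ⟨6 + 2 * C, D₀, by linarith, fun D hD => (hD₀ D hD).1, fun D hD => ?_⟩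
  obtain ⟨⟨h9, hcD, -⟩, big, hKD, hC1, -, small, base⟩ := hD₀ D hD
  have hD0 : 0 < D := by linarith
  filter_upwards [h, eventually_ge_atTop (⌈D⌉₊ + 4)] with n ⟨xi, hX, hst⟩ hn
  have hnD : D + 4 ≤ n := by
    have h1 : ((⌈D⌉₊ + 4 : ℕ) : ℝ) ≤ n := by exact_mod_cast hn
    push_cast at h1
    linarith [Nat.le_ceil D]
  -- the profile is at least one above `D / 2`
  have hprof : ∀ {Y : ℝ}, D / 2 ≤ Y → 0 ≤ Sharp.prof D A Y := fun {Y} hY => by
    have hY0 : 0 < Y := by linarith
    have h1 : Real.sqrt D / Real.sqrt Y ≤ 3 / 2 := by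
      rw [div_le_iff₀ (Real.sqrt_pos.2 hY0), Real.sqrt_le_left (by positivity), mul_pow,
        Real.sq_sqrt hY0.le]
      linarith
    have h2 : A * Sharp.cap Y ≤ 1 / 2 :=
      (mul_le_mul_of_nonneg_left (Sharp.cap_anti (by linarith) hY) (by linarith)).trans small
    unfold Sharp.prof
    have : 0 ≤ Real.sqrt D / Real.sqrt Y := by positivity
    nlinarith
  refine ⟨fun G B Y w => 2 * xi G B Y w + Sharp.prof D A Y * G.card, fun G B Y w hi hg => ?_,
    fun G B Y w hi => ?_, ?_⟩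
  · have hd := dense_of_go h9 hcD hi hg
    obtain ⟨hG, -, hY, hYN⟩ := hi
    have hYD := hg.1
    have hY0 : 0 < Y := hd.pos
    have hy : 0 < Real.sqrt Y := Real.sqrt_pos.2 hY0
    have hc := Sharp.cap_pos hY0
    have hQ0 : (0 : ℝ) < (tri G).card := Nat.cast_pos.2 hg.2.2.card_pos
    have hcap : A * Sharp.cap Y ≤ 1 / 2 :=
      (mul_le_mul_of_nonneg_left (Sharp.cap_anti (by linarith) hY) (by linarith)).trans small
    have hc20 : Sharp.cap Y ≤ 1 / 100 := hd.capsmall.trans (by norm_num)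
    have hbig : 600 * C' ≤ Real.sqrt Y * Sharp.cap Y :=
      base.trans (Sharp.sqrt_cap_mono (by linarith) hY)
    have hp := Sharp.psi_nonneg G Y w
    have hs := Sharp.sq_nonneg' G w
    have hsh := Sharp.shape_le_split hY0 hc20 hG
    have hu0 : 0 < Real.sqrt D / Real.sqrt Y := div_pos (Real.sqrt_pos.2 hD0) hy
    have u1 : Real.sqrt D / Real.sqrt Y ≤ 1 := by
      rw [div_le_one hy]; exact Real.sqrt_le_sqrt hYD.le
    have hs0 := hd.drop_nonneg
    have hs1 := hd.drop_small
    have hde : Sharp.drop G Y = 2 * (Y / (tri G).card) := by rw [Sharp.drop, Sharp.triNum]; ring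
    have hm3 : (3 : ℝ) ≤ G.card := by
      obtain ⟨t, ht⟩ := hg.2.2
      have := card_le_card (mem_tri.1 ht).2
      rw [card_sides ht] at this
      exact_mod_cast this
    have hY' : D / 2 ≤ Sharp.nextY G Y := by
      rw [Sharp.nextY, le_div_iff₀ (by linarith)]; nlinarith
    have hcap' : A * Sharp.cap (Sharp.nextY G Y) ≤ 1 / 2 :=
      (mul_le_mul_of_nonneg_left (Sharp.cap_anti (by linarith) hY') (by linarith)).trans small
    have hr : Real.sqrt (1 + Sharp.drop G Y) ≤ 3 / 2 := by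
      rw [Real.sqrt_le_iff]; exact ⟨by norm_num, by linarith⟩
    have hr3 : 1 + Sharp.drop G Y / 3 ≤ Real.sqrt (1 + Sharp.drop G Y) := by
      nlinarith [Lower.le_sqrt_one_add hs0 (by linarith)]
    have eu : Real.sqrt D / Real.sqrt (Sharp.nextY G Y) =
        Real.sqrt D / Real.sqrt Y * Real.sqrt (1 + Sharp.drop G Y) := by
      rw [Sharp.nextY, Real.sqrt_div hY0.le, div_div_eq_mul_div]; ring
    have hgain := mul_le_mul_of_nonneg_left hr3 hu0.le
    have hgain2 := mul_le_mul_of_nonneg_left (Sharp.cap_next hY0 hs0 (by linarith))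
      (show 0 ≤ A by linarith)
    have hu32 : Real.sqrt D / Real.sqrt (Sharp.nextY G Y) ≤ 3 / 2 := by
      rw [eu]; exact (mul_le_mul u1 hr (Real.sqrt_nonneg _) zero_le_one).trans_eq (one_mul _)
    set U := (∑ t ∈ tri G, 2 * xi (G \ sides t) (Sharp.nextB G B Y t) (Sharp.nextY G Y)
      (Sharp.nextW G B Y w t) + bud G Y w) / (tri G).card with hU
    have hstep : U + 2 * (Y / (tri G).card) * (Real.sqrt Y * Sharp.cap Y) *
        (Sharp.psi G Y w + Sharp.sq G w) ≤ 2 * xi G B Y w +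
          C' * (2 * (Y / (tri G).card)) * ((G.card : ℝ) * Sharp.cap Y / Real.sqrt Y) := by
      have k := hX.step G B Y w hG (by linarith) hYN hg.2.1
      rw [Sharp.triNum, hde] at k
      rw [hU, ← le_sub_iff_add_le, div_le_iff₀ hQ0, ← mul_sum, bud, marg, src]
      have e : (Y / (tri G).card) * ((tri G).card : ℝ) = Y := div_mul_cancel₀ _ hQ0.ne'
      rw [hC']
      linear_combination 2 * k +
        (2 * (G.card : ℝ) * Sharp.cap Y / Real.sqrt Y + 2 * (Real.sqrt Y * Sharp.cap Y *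
          (Sharp.psi G Y w + Sharp.sq G w))) * e.symm
    have key := Sharp.upper_arith (R := Real.sqrt D) (u := Real.sqrt D / Real.sqrt Y)
      (h := 3 - Real.sqrt D / Real.sqrt Y - A * Sharp.cap Y)
      (h' := 3 - Real.sqrt D / Real.sqrt (Sharp.nextY G Y) - A * Sharp.cap (Sharp.nextY G Y))
      (C := C') (A := A) (c := Sharp.cap Y)
      (by linarith) hQ0 hc (by linarith) le_rfl (Real.one_le_sqrt.2 (by linarith)) rfl
      (by linarith) (by linarith [hu0, mul_nonneg (show 0 ≤ A by linarith) hc.le])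
      (by
        rw [← hde, eu]
        change 3 - Real.sqrt D / Real.sqrt Y * Real.sqrt (1 + Sharp.drop G Y) -
          A * Sharp.cap (Y / (1 + Sharp.drop G Y)) + _ + _ ≤ _
        linarith)
      hm3 (hde ▸ hs1.trans (by norm_num))
      (Sharp.deficit_le G hY0 (ε := Real.sqrt D / Real.sqrt Y / 10) (by positivity) (by linarith))
      (add_nonneg hp hs) (by linarith) (by linarith) hstep
    have e : Real.sqrt Y / Real.sqrt (1 + 2 * (Y / (tri G).card)) =
        Real.sqrt (Sharp.nextY G Y) := by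
      rw [Sharp.nextY, hde, Real.sqrt_div hY0.le]
    rw [e] at key
    have key' := mul_le_mul_of_nonneg_left key hQ0.le
    rw [mul_add, hU, mul_div_cancel₀ _ hQ0.ne'] at key'
    rw [sum_add_distrib, Sharp.triNum]
    refine le_trans (le_of_eq ?_) (key'.trans (le_of_eq ?_))
    · rw [sum_congr rfl (fun t ht => show Sharp.prof D A (Sharp.nextY G Y) *
          ((G \ sides t).card : ℝ) = Sharp.prof D A (Sharp.nextY G Y) * ((G.card : ℝ) - 3) by
        have hc := congrArg (fun n : ℕ => (n : ℝ)) (Lower.card_sdiff_sides (G := G) ht)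
        push_cast at hc
        rw [show ((G \ sides t).card : ℝ) = (G.card : ℝ) - 3 by linarith]),
        sum_const, nsmul_eq_mul]
      unfold Sharp.prof
      ring
    · unfold Sharp.prof
      ring
  · obtain ⟨hG, -, hY, hYN⟩ := hi
    have hY0 : 0 < Y := by linarith
    have hge := hX.ge G B Y w hG (by linarith) hYN
    have : 0 ≤ xi G B Y w := by
      refine nonneg_of_mul_nonneg_right (le_trans ?_ hge) (by linarith)
      have := Sharp.psi_nonneg G Y w
      have := Sharp.sq_nonneg' G w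
      have := Sharp.cap_pos hY0
      positivity
    have := mul_nonneg (hprof hY) (Nat.cast_nonneg G.card)
    linarith
  · have h2 : (0 : ℝ) < (n : ℝ) - 2 := by linarith
    have hn0 : (0 : ℝ) ≤ n := Nat.cast_nonneg n
    have hs1 : 1 ≤ Real.sqrt D := Real.one_le_sqrt.2 (by linarith)
    have hpu : Sharp.prof D A ((n : ℝ) - 2) ≤ 3 * (Real.sqrt D / Real.sqrt ((n : ℝ) - 2)) := by
      unfold Sharp.prof
      have h6 : 0 ≤ Real.sqrt D / Real.sqrt ((n : ℝ) - 2) := by positivity
      have h7 : 0 ≤ A * Sharp.cap ((n : ℝ) - 2) :=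
        mul_nonneg (by linarith) (Sharp.cap_pos h2).le
      nlinarith
    have h8 : (n : ℝ) ^ 2 / 2 ≤ ((n : ℝ) * Real.sqrt n) * Real.sqrt ((n : ℝ) - 2) := by
      have hq : Real.sqrt n ≤ 2 * Real.sqrt ((n : ℝ) - 2) := by
        rw [Real.sqrt_le_left (by positivity), mul_pow, Real.sq_sqrt h2.le]; linarith
      calc (n : ℝ) ^ 2 / 2 = (n : ℝ) * Real.sqrt n * Real.sqrt n / 2 := by
            rw [mul_assoc, Real.mul_self_sqrt hn0]; ring
        _ ≤ (n : ℝ) * Real.sqrt n * (2 * Real.sqrt ((n : ℝ) - 2)) / 2 := by gcongr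
        _ = _ := by ring
    have h9' := mul_le_mul hpu (card_complete_le n) (Nat.cast_nonneg _) (by positivity)
    have h10 : 3 * (Real.sqrt D / Real.sqrt ((n : ℝ) - 2)) * ((n : ℝ) ^ 2 / 2) ≤
        3 * Real.sqrt D * ((n : ℝ) * Real.sqrt n) := by
      rw [show 3 * (Real.sqrt D / Real.sqrt ((n : ℝ) - 2)) * ((n : ℝ) ^ 2 / 2) =
        3 * Real.sqrt D * ((n : ℝ) ^ 2 / 2) / Real.sqrt ((n : ℝ) - 2) by ring,
        div_le_iff₀ (Real.sqrt_pos.2 h2), mul_assoc (3 * Real.sqrt D)]
      exact mul_le_mul_of_nonneg_left h8 (by positivity)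
    have h11 : C * ((n : ℝ) * Real.sqrt n) ≤ C * Real.sqrt D * ((n : ℝ) * Real.sqrt n) :=
      mul_le_mul_of_nonneg_right (le_mul_of_one_le_right (by linarith) hs1) (by positivity)
    have : 0 ≤ Real.sqrt D * ((n : ℝ) * Real.sqrt n) := by positivity
    linarith

end Vale.Agent.P046.Limit.A2
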