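import Vale.Agent.P046.Limit.A2.Core

/-!
P046, the limit constant, module Tail: the cubed excess of the relative degree. An edge of relative
degree `ζ` dies at rate `ζ`, while its excess grows at most at rate `2`; so beyond a constant the
potential drops by itself, and near it the margin of the penalty pays.
-/

open Finset Filter

namespace Vale.Agent.P046.Limit.A2

variable {α : Type*} [DecidableEq α] [Fintype α] {G B : Finset (Finset α)} {Y : ℝ}
  {w : Finset α → ℝ}

/-- The excess of the relative degree. -/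
noncomputable def excess (G : Finset (Finset α)) (Y : ℝ) (e : Finset α) : ℝ :=
  max (zeta G Y e - 4) 0

/-- The cubed excess. -/
noncomputable def cube (G : Finset (Finset α)) (Y : ℝ) : ℝ := ∑ e ∈ G, excess G Y e ^ 3

/-- The dissipation of the cubed excess. -/
noncomputable def diss (G : Finset (Finset α)) (Y : ℝ) : ℝ :=
  ∑ e ∈ G, zeta G Y e * excess G Y e ^ 3

theorem excess_nonneg (G : Finset (Finset α)) (Y : ℝ) (e : Finset α) : 0 ≤ excess G Y e :=
  le_max_right _ _

theorem cube_nonneg (G : Finset (Finset α)) (Y : ℝ) : 0 ≤ cube G Y :=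
  sum_nonneg fun e _ => pow_nonneg (excess_nonneg G Y e) 3

theorem diss_nonneg (hY : 0 < Y) : 0 ≤ diss G Y :=
  sum_nonneg fun e _ => mul_nonneg (Sharp.zeta_nonneg' hY e) (pow_nonneg (excess_nonneg G Y e) 3)

theorem excess_cube_pointwise {z : ℝ} (hz : 0 ≤ z) :
    (if 3 < z then 2 * z * (4 * max (z - 4) 0 ^ 2 + 1) else 0) - z * max (z - 4) 0 ^ 3 / 2
      ≤ 700 * phi (z - 1) := by
  have hp := phi_nonneg (z - 1)
  have ha : 0 ≤ max (z - 4) 0 := le_max_right _ _
  generalize max (z - 4) 0 = a at ha ⊢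
  split_ifs with h
  · have hφ : 4 / 9 * z ≤ phi (z - 1) := by
      rw [phi, if_pos (by linarith), le_div_iff₀ (by linarith)]
      nlinarith
    have h8 : 8 * a ^ 2 + 2 - a ^ 3 / 2 ≤ 310 := by
      nlinarith [mul_nonneg (show 0 ≤ a + 16 / 3 by linarith) (sq_nonneg (a - 32 / 3))]
    have := mul_le_mul_of_nonneg_left h8 hz
    linarith
  · have : 0 ≤ z * a ^ 3 / 2 := by positivity
    linarith

theorem cube_step (hd : Sharp.Dense G B Y w) :
    ∑ t ∈ tri G, cube (G \ sides t) (Sharp.nextY G Y) + Y / 2 * diss G Y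
      ≤ Sharp.triNum G * cube G Y + 700 * (Y * Sharp.phiSum G Y) := by
  have hY := hd.pos
  have hs := hd.drop_nonneg
  set s := Sharp.drop G Y with hsd
  set a : Finset α → ℝ := excess G Y with ha
  set inc : Finset α → ℝ := fun e =>
    if 3 < zeta G Y e then s * zeta G Y e * (4 * a e ^ 2 + 1) else 0 with hinc
  have small : ∀ e, s * zeta G Y e ≤ 1 / 100 := fun e => by
    have h1 : (2 : ℝ) * deg G e ≤ G.card := by exact_mod_cast two_deg_le e
    have hL := hd.large
    rw [hsd, Sharp.drop, zeta, div_mul_div_comm,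
      div_le_iff₀ (mul_pos hd.triNum_pos hY)]
    have := hd.many
    nlinarith [mul_le_mul_of_nonneg_left h1 hY.le,
      mul_le_mul_of_nonneg_left hL hd.triNum_pos.le]
  have point : ∀ t ∈ tri G, ∀ e ∈ G \ sides t,
      excess (G \ sides t) (Sharp.nextY G Y) e ^ 3 ≤ a e ^ 3 + inc e := by
    intro t ht e he
    have hz : zeta (G \ sides t) (Sharp.nextY G Y) e ≤ (1 + s) * zeta G Y e := by
      rw [hd.zeta_next (mem_sdiff.1 he).2, Sharp.hh, ← hsd]
      have : 0 ≤ (1 + s) / Y * Sharp.dk G t e :=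
        mul_nonneg (div_nonneg (by linarith) hY.le) (Sharp.dk_nonneg G t e)
      linarith
    have h0 := excess_nonneg (G \ sides t) (Sharp.nextY G Y) e
    have ha0 := excess_nonneg G Y e
    have hz0 := Sharp.zeta_nonneg' (G := G) hY e
    have hh : 0 ≤ s * zeta G Y e := mul_nonneg hs hz0
    simp only [hinc]
    split_ifs with h3
    · have h1 : excess (G \ sides t) (Sharp.nextY G Y) e ≤ a e + s * zeta G Y e := by
        refine max_le ?_ (add_nonneg ha0 hh)
        have : zeta G Y e - 4 ≤ a e := le_max_left _ _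
        linarith
      refine (pow_le_pow_left₀ h0 h1 3).trans ?_
      have h2 := small e
      generalize s * zeta G Y e = u at hh h2
      have ha0' : 0 ≤ a e := ha0
      generalize a e = x at ha0'
      nlinarith [mul_nonneg (mul_nonneg hh (show 0 ≤ 1 / 100 - u by linarith)) ha0',
        mul_nonneg (mul_nonneg hh hh) (show 0 ≤ 1 / 100 - u by linarith),
        mul_nonneg hh (sq_nonneg (x - 1)), mul_nonneg hh (sq_nonneg x)]
    · have h2 := small e
      have : excess (G \ sides t) (Sharp.nextY G Y) e = 0 := max_eq_right (by linarith)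
      rw [this, add_zero]
      norm_num
      positivity
  refine le_trans (add_le_add_left (sum_le_sum fun t ht => sum_le_sum (point t ht)) _) ?_
  rw [sum_congr rfl (fun t ht => sum_sdiff_eq_sub (mem_tri.1 ht).2), sum_sub_distrib, sum_const,
    nsmul_eq_mul, sum_tri_sides, sum_add_distrib, diss, cube, Sharp.phiSum]
  change Sharp.triNum G * (∑ e ∈ G, a e ^ 3 + ∑ e ∈ G, inc e) - _ + _ ≤ _
  rw [mul_add, mul_sum (a := Sharp.triNum G) (f := inc), mul_sum (a := Y / 2),
    mul_sum (a := Y), mul_sum (a := (700 : ℝ))]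
  suffices h : ∀ e ∈ G, Sharp.triNum G * inc e + Y / 2 * (zeta G Y e * excess G Y e ^ 3)
      - (deg G e : ℝ) * (a e ^ 3 + inc e) ≤ 700 * (Y * phi (zeta G Y e - 1)) by
    have := sum_le_sum h
    simp only [sum_sub_distrib, sum_add_distrib] at this
    linarith
  intro e _
  have hz0 := Sharp.zeta_nonneg' (G := G) hY e
  have e1 : (deg G e : ℝ) = Y * zeta G Y e := by rw [zeta]; field_simp
  have e2 : Sharp.triNum G * inc e =
      Y * (if 3 < zeta G Y e then 2 * zeta G Y e * (4 * a e ^ 2 + 1) else 0) := by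
    simp only [hinc]
    split_ifs
    · linear_combination (zeta G Y e * (4 * a e ^ 2 + 1)) * hd.drop_mul
    · simp
  have e3 : 0 ≤ (deg G e : ℝ) * inc e := by
    refine mul_nonneg (Nat.cast_nonneg _) ?_
    simp only [hinc]
    split_ifs <;> positivity
  have k := mul_le_mul_of_nonneg_left (excess_cube_pointwise hz0) hY.le
  rw [e2]
  rw [mul_add, e1] at *
  simp only [ha, excess] at *
  linarith

/-- Below the scale `D`, a large degree is paid by the cubed excess. -/
theorem big_deg {D M : ℝ} (hY : D / 2 ≤ Y) (hYD : Y ≤ D) (hD : 0 < D) (hM : 10 * D ≤ M)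
    {e : Finset α} (he : M < deg G e) :
    (deg G e : ℝ) ^ 2 ≤ 8 * D ^ 3 / M * excess G Y e ^ 3 ∧
      (deg G e : ℝ) ≤ 8 * D ^ 3 / M ^ 2 * excess G Y e ^ 3 := by
  have hY0 : 0 < Y := by linarith
  have hM0 : 0 < M := by linarith
  set d : ℝ := (deg G e : ℝ) with hd
  have hd0 : 0 < d := by linarith
  have hz : d = Y * zeta G Y e := by rw [zeta, ← hd]; field_simp
  have h10 : 10 ≤ zeta G Y e := by
    rw [zeta, ← hd, le_div_iff₀ hY0]; linarith
  have ha : zeta G Y e ≤ 2 * excess G Y e := by
    have : zeta G Y e - 4 ≤ excess G Y e := le_max_left _ _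
    linarith
  have h3 : d ^ 3 ≤ 8 * D ^ 3 * excess G Y e ^ 3 := by
    have := mul_le_mul hYD ha (by linarith) hD.le
    calc d ^ 3 ≤ (D * (2 * excess G Y e)) ^ 3 := pow_le_pow_left₀ hd0.le (hz ▸ this) 3
      _ = _ := by ring
  constructor
  · rw [div_mul_eq_mul_div, le_div_iff₀ hM0]
    calc d ^ 2 * M ≤ d ^ 2 * d := mul_le_mul_of_nonneg_left he.le (sq_nonneg _)
      _ = d ^ 3 := by ring
      _ ≤ _ := h3
  · rw [div_mul_eq_mul_div, le_div_iff₀ (by positivity)]
    calc d * M ^ 2 ≤ d * d ^ 2 :=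
          mul_le_mul_of_nonneg_left (pow_le_pow_left₀ hM0.le he.le 2) hd0.le
      _ = d ^ 3 := by ring
      _ ≤ _ := h3

theorem sides_injOn : Set.InjOn sides {t : Finset α | t.card = 3} := by
  intro a ha b hb hab
  have key : ∀ {a b : Finset α}, a.card = 3 → sides a = sides b → a ⊆ b := by
    intro a b ha hab v hv
    obtain ⟨u, hu, huv⟩ := exists_mem_ne (show 1 < a.card by omega) v
    have : ({v, u} : Finset α) ∈ sides b :=
      hab ▸ mem_powersetCard.2 ⟨by simp [insert_subset_iff, hv, hu], card_pair huv.symm⟩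
    exact (mem_powersetCard.1 this).1 (by simp)
  exact (key ha hab).antisymm (key hb hab.symm)

theorem dg_blocks (G : Finset (Finset α)) (e : Finset α) :
    dg (blocks G) e = (deg G e : ℝ) := by
  rw [dg, blocksAt, blocks, filter_image, card_image_of_injOn, deg]
  refine sides_injOn.mono fun t ht => ?_
  simp only [mem_coe, mem_filter, mem_tri] at ht
  exact ht.1.1

theorem cube_start {n : ℕ} (hn : 4 ≤ n) : cube (complete n) ((n : ℝ) - 2) = 0 :=
  sum_eq_zero fun e he => by rw [excess, zeta_start hn he]; norm_num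

/-- The cubed excess together with the absorber is a supersolution. -/
theorem cube_super {n : ℕ} {D C : ℝ} (h9 : 10 ^ 9 ≤ D) (hc : Sharp.cap D ≤ 1 / 1000)
    (h6 : 10 ^ 6 ≤ Real.sqrt D * Sharp.cap D)
    {Ab : Finset (Finset (Fin n)) → Finset (Finset (Fin n)) → ℝ → (Finset (Fin n) → ℝ) → ℝ}
    (hA : Absorber n D C Ab) {G B : Finset (Finset (Fin n))} {Y : ℝ} {w : Finset (Fin n) → ℝ}
    (hi : Inv n D G B Y w) (hg : Go D G Y) :
    ∑ t ∈ tri G, (cube (G \ sides t) (Sharp.nextY G Y) + Ab (G \ sides t) (Sharp.nextB G B Y t)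
      (Sharp.nextY G Y) (Sharp.nextW G B Y w t)) ≤
      Sharp.triNum G * (cube G Y + Ab G B Y w) := by
  have hd := dense_of_go h9 hc hi hg
  have hY := hd.pos
  have h1 := cube_step hd
  have h2 := hA.step G B Y w hi hg
  have h3 := hd.phiSum_bulk
  have hp := Sharp.psi_nonneg G Y w
  have hs := Sharp.sq_nonneg' G w
  have hb : 700 * (Y * Sharp.phiSum G Y) ≤ bud G Y w := by
    have h5 : 10 ^ 6 ≤ Real.sqrt Y * Sharp.cap Y :=
      h6.trans (Sharp.sqrt_cap_mono (by linarith) hg.1.le)
    have h7 := mul_le_mul_of_nonneg_right h5 (add_nonneg hp hs)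
    have h8 : 0 ≤ src G Y := by
      have := Sharp.cap_pos hY
      unfold src; positivity
    have h10 := mul_le_mul_of_nonneg_left (show 700 * Sharp.phiSum G Y ≤ 2 * (marg G Y w + src G Y)
      by rw [marg]; linarith) hY.le
    rw [bud]
    linarith
  have h4 := diss_nonneg (G := G) hY
  have : 0 ≤ Y / 2 * diss G Y := by positivity
  rw [sum_add_distrib]
  linarith

/-- Module Tail: the degrees at the scale `D` have a uniform tail. -/
theorem stopTail : StopTailStmt := by
  obtain ⟨C, D₀, hC, hfac, hab⟩ := exists_absorber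
  refine ⟨D₀, fun D hD δ hδ => ?_⟩
  obtain ⟨h9, hc, h6⟩ := hfac D hD
  have hD0 : 0 < D := by linarith
  set R := C * Real.sqrt D with hR
  have hR0 : 0 ≤ R := by positivity
  set M := max (10 * D) (8 * D ^ 3 * R / δ) with hMdef
  have hM : 10 * D ≤ M := le_max_left _ _
  have hM0 : 0 < M := by linarith
  refine ⟨M, hM0.le, ?_⟩
  filter_upwards [hab D hD, eventually_ge_atTop (⌈D⌉₊ + 4)] with n ⟨Ab, hA⟩ hn
  have hnD : D + 4 ≤ n := by
    have h1 : ((⌈D⌉₊ + 4 : ℕ) : ℝ) ≤ n := by exact_mod_cast hn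
    push_cast at h1
    linarith [Nat.le_ceil D]
  set k := 8 * D ^ 3 / M with hk
  have hk0 : 0 ≤ k := by positivity
  have main : fromTop n D (degTail M D) ≤
      k * (cube (complete n) ((n : ℝ) - 2) + Ab (complete n) ∅ ((n : ℝ) - 2) fun _ => 0) := by
    refine stopE_le_of_step (I := Inv n D)
      (S := fun G B Y w => k * (cube G Y + Ab G B Y w))
      (fun G B Y w hi hg t ht => hi.next h9 hc hg ht)
      (fun G B Y w hi hg => ?_) (fun G B Y w hi _ => ?_) _ _ _ _ (inv_start hD0.le hnD)
    · rw [← mul_sum, mul_left_comm]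
      exact mul_le_mul_of_nonneg_left (cube_super h9 hc h6 hA hi hg) hk0
    · have hA0 := hA.nonneg G B Y w hi
      have hV0 := cube_nonneg G Y
      unfold degTail
      split_ifs with hYD
      · refine le_trans ?_ (mul_le_mul_of_nonneg_left (le_add_of_nonneg_right hA0) hk0)
        rw [cube, mul_sum]
        refine sum_le_sum fun e he => ?_
        rw [dg_blocks]
        split_ifs with hbig
        · exact (big_deg hi.2.2.1 hYD hD0 hM hbig).1
        · have := excess_nonneg G Y e
          positivity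
      · positivity
  refine main.trans ?_
  have h4 : 4 ≤ n := by omega
  rw [cube_start h4, zero_add]
  refine (mul_le_mul_of_nonneg_left hA.start hk0).trans ?_
  rw [← mul_assoc]
  refine mul_le_mul_of_nonneg_right ?_ (by positivity)
  rw [hk, ← hR, div_mul_eq_mul_div, div_le_iff₀ hM0]
  have := le_max_right (10 * D) (8 * D ^ 3 * R / δ)
  rw [← hMdef, div_le_iff₀ hδ] at this
  linarith

end Vale.Agent.P046.Limit.A2
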