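import Vale.Agent.P046.Limit.A2.Chain
import Vale.Agent.P046.Limit.A2.Cube

/-!
P046, the limit constant, module Short: the possible supports of short cycles of triangles form a
fixed family of edge sets of the complete graph. A member which lies among the untainted edges dies
at the rate given by its `2q + 4` edges.
-/

open Finset

namespace Vale.Agent.P046.Limit.A2

variable {n : ℕ}

/-- The pairs which share a vertex with `e`. -/
def adj (e : Finset (Fin n)) : Finset (Finset (Fin n)) :=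
  (e ×ˢ univ).image fun v => {v.1, v.2}

/-- First edge, last edge, and the union of the triangles in between, along a path of `l` triangles. -/
def paths (n : ℕ) : ℕ → Finset (Finset (Fin n) × Finset (Fin n) × Finset (Finset (Fin n)))
  | 0 => (complete n).image fun e => (e, e, ∅)
  | l + 1 => (paths n l).biUnion fun p =>
      (adj p.2.1 ∩ complete n).image fun y => (p.1, y, p.2.2 ∪ sides (p.2.1 ∪ y))

/-- The possible supports of a cycle of `q + 2` triangles. -/
def fam (n q : ℕ) : Finset (Finset (Finset (Fin n))) :=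
  ((paths n (q + 1)).image fun p => p.2.2 ∪ sides (p.2.1 ∪ p.1)).filter fun S => S.card = 2 * q + 4

theorem two_of_mem {e : Finset (Fin n)} (h : e ∈ complete n) : e.card = 2 :=
  (mem_powersetCard.1 h).2

theorem paths_last {l : ℕ} {p : Finset (Fin n) × Finset (Fin n) × Finset (Finset (Fin n))}
    (hp : p ∈ paths n l) : p.2.1 ∈ complete n := by
  cases l with
  | zero =>
    obtain ⟨e, he, rfl⟩ := mem_image.1 hp
    exact he
  | succ l =>
    obtain ⟨p', -, hp'⟩ := mem_biUnion.1 hp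
    obtain ⟨y, hy, rfl⟩ := mem_image.1 hp'
    exact (mem_inter.1 hy).2

theorem card_paths_le (n l : ℕ) : (paths n l).card ≤ (complete n).card * (2 * n) ^ l := by
  induction l with
  | zero => simpa [paths] using card_image_le (s := complete n) (f := fun e => (e, e, (∅ : Finset (Finset (Fin n)))))
  | succ l ih =>
    refine (card_biUnion_le_card_mul _ _ (2 * n) fun p hp => ?_).trans ?_
    · refine card_image_le.trans ((card_le_card inter_subset_left).trans (card_image_le.trans ?_))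
      rw [card_product, two_of_mem (paths_last hp), card_univ, Fintype.card_fin]
    · rw [pow_succ]
      exact (Nat.mul_le_mul_right _ ih).trans (le_of_eq (mul_assoc _ _ _))

theorem card_fam_le (n q : ℕ) : ((fam n q).card : ℝ) ≤ (n : ℝ) ^ 2 / 2 * (2 * n) ^ (q + 1) := by
  have h : (fam n q).card ≤ (complete n).card * (2 * n) ^ (q + 1) :=
    ((card_filter_le _ _).trans card_image_le).trans (card_paths_le n _)
  calc ((fam n q).card : ℝ) ≤ (((complete n).card * (2 * n) ^ (q + 1) : ℕ) : ℝ) :=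
        Nat.cast_le.2 h
    _ = ((complete n).card : ℝ) * (2 * n) ^ (q + 1) := by push_cast; ring
    _ ≤ _ := mul_le_mul_of_nonneg_right (card_complete_le n) (by positivity)

theorem blocks_card3 (G : Finset (Finset (Fin n))) : ∀ k ∈ blocks G, k.card = 3 := by
  intro k hk
  obtain ⟨t, ht, rfl⟩ := mem_image.1 hk
  exact card_sides ht

theorem blocks_lin (G : Finset (Finset (Fin n))) :
    ∀ k ∈ blocks G, ∀ j ∈ blocks G, k ≠ j → (k ∩ j).card ≤ 1 := by
  intro k hk j hj hne
  obtain ⟨t, ht, rfl⟩ := mem_image.1 hk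
  obtain ⟨t', ht', rfl⟩ := mem_image.1 hj
  exact card_inter_sides ht ht' fun h => hne (h ▸ rfl)

theorem blocks_sub {G : Finset (Finset (Fin n))} {k : Finset (Finset (Fin n))} (hk : k ∈ blocks G) :
    k ⊆ G := by
  obtain ⟨t, ht, rfl⟩ := mem_image.1 hk
  exact (mem_tri.1 ht).2

theorem block_span {G : Finset (Finset (Fin n))} {k : Finset (Finset (Fin n))} (hk : k ∈ blocks G)
    {x y : Finset (Fin n)} (hx : x ∈ k) (hy : y ∈ k) (hne : x ≠ y) :
    sides (x ∪ y) = k ∧ y ∈ adj x := by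
  obtain ⟨t, ht, rfl⟩ := mem_image.1 hk
  obtain ⟨hxs, hx2⟩ := mem_powersetCard.1 hx
  obtain ⟨hys, hy2⟩ := mem_powersetCard.1 hy
  have ht3 := (mem_tri.1 ht).1
  have h2 : 2 < (x ∪ y).card := by
    by_contra hc
    push Not at hc
    exact hne ((eq_of_subset_of_card_le subset_union_left (by omega)).trans
      (eq_of_subset_of_card_le subset_union_right (by omega)).symm)
  have hu : x ∪ y = t := eq_of_subset_of_card_le (union_subset hxs hys) (by omega)
  refine ⟨by rw [hu], ?_⟩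
  obtain ⟨v, hv⟩ : (x ∩ y).Nonempty := by
    rw [← card_pos]
    have := card_union_add_card_inter x y
    rw [hu] at this
    omega
  obtain ⟨hvx, hvy⟩ := mem_inter.1 hv
  obtain ⟨u, hu, huv⟩ := exists_mem_ne (show 1 < y.card by omega) v
  refine mem_image.2 ⟨(v, u), mem_product.2 ⟨hvx, mem_univ _⟩, ?_⟩
  exact eq_of_subset_of_card_le (insert_subset hvy (singleton_subset_iff.2 hu))
    (by rw [hy2, card_pair huv.symm])

theorem ring_mem_fam {G : Finset (Finset (Fin n))} (hG : G ⊆ complete n) {i : Finset (Fin n)}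
    {q : ℕ} {f : ℕ → Finset (Finset (Fin n))} {x : ℕ → Finset (Fin n)}
    (h : Ring (blocks G) i q f x) : (range (q + 2)).biUnion f ∈ fam n q := by
  have hx : ∀ l ≤ q + 1, x l ∈ complete n := fun l hl =>
    hG (blocks_sub (h.mem l hl) (h.left l hl))
  have claim : ∀ l ≤ q + 1, (x 0, x l, (range l).biUnion f) ∈ paths n l := by
    intro l hl
    induction l with
    | zero => exact mem_image.2 ⟨x 0, hx 0 (by omega), by simp⟩
    | succ l ih =>
      obtain ⟨hs, ha⟩ := block_span (h.mem l (by omega)) (h.left l (by omega)) (h.right l (by omega))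
        (h.ne l (by omega))
      refine mem_biUnion.2 ⟨_, ih (by omega), mem_image.2 ⟨x (l + 1),
        mem_inter.2 ⟨ha, hx _ hl⟩, ?_⟩⟩
      rw [hs, range_add_one, biUnion_insert, union_comm (f l)]
  refine mem_filter.2 ⟨mem_image.2 ⟨_, claim (q + 1) le_rfl, ?_⟩, h.card⟩
  obtain ⟨hs, -⟩ := block_span (h.mem _ le_rfl) (h.left _ le_rfl) h.close h.ne_close
  rw [hs, range_add_one (n := q + 1), biUnion_insert, union_comm (f (q + 1))]

/-- The members of the family among the untainted edges. -/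
def alive (n q : ℕ) (G Bt : Finset (Finset (Fin n))) : Finset (Finset (Finset (Fin n))) :=
  (fam n q).filter (· ⊆ G \ Bt)

theorem alive_mono {q : ℕ} {G G' Bt Bt' : Finset (Finset (Fin n))} (hG : G' ⊆ G) (hB : Bt ⊆ Bt') :
    alive n q G' Bt' ⊆ alive n q G Bt := fun S hS =>
  mem_filter.2 ⟨(mem_filter.1 hS).1, (mem_filter.1 hS).2.trans (sdiff_subset_sdiff hG hB)⟩

theorem alive_decay {q : ℕ} {G Bt : Finset (Finset (Fin n))} {Y τ : ℝ} (hY : 0 < Y)
    (flat : ∀ e ∈ G, e ∉ Bt → |zeta G Y e - 1| ≤ τ) (B' : Finset (Fin n) → Finset (Finset (Fin n)))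
    (hB' : ∀ t ∈ tri G, Bt ⊆ B' t) :
    ∑ t ∈ tri G, ((alive n q (G \ sides t) (B' t)).card : ℝ) ≤
      (Sharp.triNum G - ((2 * q + 4 : ℕ) * ((1 - τ) * Y) - ((2 * q + 4 : ℕ).choose 2 : ℕ)))
        * ((alive n q G Bt).card : ℝ) := by
  have h1 : ∀ t ∈ tri G, ((alive n q (G \ sides t) (B' t)).card : ℝ)
      ≤ ∑ S ∈ alive n q G Bt, if Disjoint (sides t) S then (1 : ℝ) else 0 := by
    intro t ht
    rw [sum_boole]
    refine Nat.cast_le.2 (card_le_card fun S hS => ?_)
    refine mem_filter.2 ⟨alive_mono sdiff_subset (hB' t ht) hS, disjoint_left.2 fun y hy hy' => ?_⟩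
    exact (mem_sdiff.1 (mem_sdiff.1 ((mem_filter.1 hS).2 hy')).1).2 hy
  refine (sum_le_sum h1).trans ?_
  rw [sum_comm, mul_comm, ← nsmul_eq_mul, ← sum_const]
  refine sum_le_sum fun S hS => ?_
  obtain ⟨hf, hsub⟩ := mem_filter.1 hS
  have hc : S.card = 2 * q + 4 := (mem_filter.1 hf).2
  have hd : ((2 * q + 4 : ℕ) : ℝ) * ((1 - τ) * Y) ≤ ∑ e ∈ S, (deg G e : ℝ) := by
    rw [← hc, ← nsmul_eq_mul]
    refine card_nsmul_le_sum _ _ _ fun e he => ?_
    obtain ⟨hG, hB⟩ := mem_sdiff.1 (hsub he)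
    have := (abs_le.1 (flat e hG hB)).1
    rw [zeta] at this
    have h2 : 1 - τ ≤ deg G e / Y := by linarith
    rwa [le_div_iff₀ hY] at h2
  have hm := Sharp.deg_le_meet G S
  rw [hc] at hm
  have hsplit : ((((tri G).filter fun t => Disjoint (sides t) S).card : ℕ) : ℝ)
      + (((tri G).filter fun t => ¬ Disjoint (sides t) S).card : ℕ) = Sharp.triNum G := by
    rw [Sharp.triNum, ← Nat.cast_add, card_filter_add_card_filter_not]
  rw [sum_boole]
  push_cast at hm hd ⊢
  linarith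

/-- The exponent of the decay above `Y₁`. -/
noncomputable def expo (q : ℕ) : ℝ := (q : ℝ) + 7 / 4

/-- The weighted number of untainted cycles. -/
noncomputable def cyc (q : ℕ) (Y₁ : ℝ) (G Bt : Finset (Finset (Fin n))) (Y : ℝ) : ℝ :=
  ((alive n q G Bt).card : ℝ) * (Y₁ / max Y Y₁) ^ expo q

theorem cyc_nonneg (q : ℕ) {Y₁ : ℝ} (hY₁ : 0 < Y₁) (G Bt : Finset (Finset (Fin n))) (Y : ℝ) :
    0 ≤ cyc q Y₁ G Bt Y := by
  have : 0 ≤ Y₁ / max Y Y₁ := div_nonneg hY₁.le (hY₁.le.trans (le_max_right _ _))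
  unfold cyc; positivity

theorem cyc_stop (q : ℕ) {Y₁ : ℝ} (hY₁ : 0 < Y₁) (G Bt : Finset (Finset (Fin n))) {Y : ℝ}
    (hY : Y ≤ Y₁) : cyc q Y₁ G Bt Y = ((alive n q G Bt).card : ℝ) := by
  rw [cyc, max_eq_right hY, div_self hY₁.ne', Real.one_rpow, mul_one]

theorem cyc_step {q : ℕ} {G B Bt : Finset (Finset (Fin n))} {Y τ Y₁ : ℝ}
    {w : Finset (Fin n) → ℝ} (hd : Sharp.Dense G B Y w) (hY₁ : 0 < Y₁)
    (hbig : 8 * ((q : ℝ) + 2) ^ 2 * 4 ≤ Y₁) (hτ : (2 * (q : ℝ) + 4) * τ ≤ 1 / 4)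
    (hf : Y₁ < Y → ∀ e ∈ G, e ∉ Bt → |zeta G Y e - 1| ≤ τ)
    (B' : Finset (Fin n) → Finset (Finset (Fin n))) (hB' : ∀ t ∈ tri G, Bt ⊆ B' t) :
    ∑ t ∈ tri G, cyc q Y₁ (G \ sides t) (B' t) (Sharp.nextY G Y) ≤
      Sharp.triNum G * cyc q Y₁ G Bt Y := by
  rcases le_or_gt Y Y₁ with h | h
  · rw [cyc_stop q hY₁ G Bt h, Sharp.triNum, ← nsmul_eq_mul, ← sum_const]
    refine sum_le_sum fun t ht => ?_
    rw [cyc_stop q hY₁ _ _ (hd.nextY_le.trans h)]
    exact Nat.cast_le.2 (card_le_card (alive_mono sdiff_subset (hB' t ht)))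
  have hY := hd.pos
  have hs := hd.drop_nonneg
  set s := Sharp.drop G Y with hsd
  have hq0 : (0 : ℝ) ≤ q := Nat.cast_nonneg q
  set a := expo q with ha
  have ha0 : 0 ≤ a := by rw [ha, expo]; positivity
  have haq : a ≤ (q : ℝ) + 2 := by rw [ha, expo]; linarith
  have hw : (Y₁ / max (Sharp.nextY G Y) Y₁) ^ a ≤
      (Y₁ / max Y Y₁) ^ a * (1 + s) ^ a := by
    rw [max_eq_left h.le, ← Real.mul_rpow (by positivity) (by linarith)]
    refine Real.rpow_le_rpow ?_ ?_ ha0
    · exact div_nonneg hY₁.le (hY₁.le.trans (le_max_right _ _))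
    · calc Y₁ / max (Sharp.nextY G Y) Y₁ ≤ Y₁ / Sharp.nextY G Y :=
            div_le_div_of_nonneg_left hY₁.le hd.nextY_pos (le_max_left _ _)
        _ = _ := by rw [Sharp.nextY, ← hsd]; field_simp
  have has : a * s ≤ 1 := by
    have h1 := hd.drop_le_inv
    rw [← hsd, le_div_iff₀ hY] at h1
    nlinarith
  have hg : (1 + s) ^ a ≤ 1 + a * s + (a * s) ^ 2 := by
    refine le_trans (Real.rpow_le_rpow (by linarith) (Real.add_one_le_exp s |>.trans' (by linarith))
      ha0) ?_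
    rw [← Real.exp_mul, mul_comm s a]
    have := Real.abs_exp_sub_one_sub_id_le (x := a * s)
      (by rw [abs_of_nonneg (mul_nonneg ha0 hs)]; exact has)
    linarith [(abs_le.1 this).2]
  set R : ℝ := ((2 * q + 4 : ℕ) : ℝ) * ((1 - τ) * Y) - ((2 * q + 4 : ℕ).choose 2 : ℕ) with hR
  have key : (Sharp.triNum G - R) * (1 + a * s + (a * s) ^ 2) ≤ Sharp.triNum G := by
    have hch : (((2 * q + 4 : ℕ).choose 2 : ℕ) : ℝ) ≤ 2 * ((q : ℝ) + 2) ^ 2 := by
      rw [Nat.cast_choose_two]; push_cast; nlinarith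
    have hR1 : (2 * (q : ℝ) + 4) * Y - 1 / 4 * Y - 2 * ((q : ℝ) + 2) ^ 2 ≤ R := by
      rw [hR]
      push_cast
      have := mul_le_mul_of_nonneg_right hτ hY.le
      linarith
    have h2 : (q + 2 : ℝ) ^ 2 * 32 ≤ Y := by linarith
    have hR0 : 0 ≤ R := by nlinarith
    have e1 : Sharp.triNum G * (a * s) = 2 * a * Y := by
      linear_combination a * hd.drop_mul
    have e2 : Sharp.triNum G * (a * s) ^ 2 ≤ 2 * ((q : ℝ) + 2) ^ 2 := by
      have h1 := hd.drop_le_inv
      rw [← hsd, le_div_iff₀ hY] at h1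
      calc Sharp.triNum G * (a * s) ^ 2 = a ^ 2 * (s * Y) * 2 := by
            linear_combination (a ^ 2 * s) * hd.drop_mul
        _ ≤ a ^ 2 * 1 * 2 := by gcongr
        _ ≤ _ := by nlinarith
    have hn : 0 ≤ R * (a * s + (a * s) ^ 2) := by positivity
    have ea : 2 * a * Y = (2 * (q : ℝ) + 7 / 2) * Y := by rw [ha, expo]; ring
    linarith
  have h3 := alive_decay (q := q) hY (hf h) B' hB'
  rw [← hR] at h3
  calc ∑ t ∈ tri G, cyc q Y₁ (G \ sides t) (B' t) (Sharp.nextY G Y)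
      ≤ (∑ t ∈ tri G, ((alive n q (G \ sides t) (B' t)).card : ℝ)) *
          ((Y₁ / max Y Y₁) ^ a * (1 + a * s + (a * s) ^ 2)) := by
        rw [sum_mul]
        refine sum_le_sum fun t _ => mul_le_mul_of_nonneg_left (hw.trans ?_) (Nat.cast_nonneg _)
        exact mul_le_mul_of_nonneg_left hg (Real.rpow_nonneg (by positivity) _)
    _ ≤ (Sharp.triNum G - R) * ((alive n q G Bt).card : ℝ) *
          ((Y₁ / max Y Y₁) ^ a * (1 + a * s + (a * s) ^ 2)) := by
        refine mul_le_mul_of_nonneg_right h3 ?_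
        have := mul_nonneg ha0 hs
        have : 0 ≤ (Y₁ / max Y Y₁) ^ a := Real.rpow_nonneg (by positivity) _
        positivity
    _ = (Sharp.triNum G - R) * (1 + a * s + (a * s) ^ 2) * cyc q Y₁ G Bt Y := by
        rw [cyc, ← ha]; ring
    _ ≤ _ := mul_le_mul_of_nonneg_right key (cyc_nonneg q hY₁ G Bt Y)

end Vale.Agent.P046.Limit.A2
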