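import Vale.Agent.P046.Limit.A2.Cube

/-!
P046, the limit constant, module Short: edges whose relative degree ever left `[1 - τ, 1 + τ]` above
the scale `Y₁`. Their number is carried by the precursor `(ζ - 1)²`; below `Y₁` it only falls.
-/

open Finset

namespace Vale.Agent.P046.Limit.A2

variable {α : Type*} [DecidableEq α] [Fintype α] {G B Bt : Finset (Finset α)} {Y τ Y₁ : ℝ}
  {w : Finset α → ℝ}

open Classical in
/-- The tainted edges after one step. -/
noncomputable def growT (τ Y₁ : ℝ) (G : Finset (Finset α)) (Y : ℝ) (Bt : Finset (Finset α))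
    (t : Finset α) : Finset (Finset α) :=
  if Y₁ < Y then
    Bt ∪ (G \ sides t).filter fun e => τ < |zeta (G \ sides t) (Sharp.nextY G Y) e - 1|
  else Bt

/-- Above `Y₁` the other edges are flat. -/
def TFlat (τ Y₁ : ℝ) (G : Finset (Finset α)) (Y : ℝ) (Bt : Finset (Finset α)) : Prop :=
  Y₁ < Y → ∀ e ∈ G, e ∉ Bt → |zeta G Y e - 1| ≤ τ

/-- The tainted edges, with the precursor for the others above `Y₁`. -/
noncomputable def tee (τ Y₁ : ℝ) (G : Finset (Finset α)) (Y : ℝ) (Bt : Finset (Finset α)) : ℝ :=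
  τ ^ 2 * ((G ∩ Bt).card : ℝ) +
    if Y₁ < Y then ∑ e ∈ G \ Bt, (zeta G Y e - 1) ^ 2 + 3002 * cube G Y else 0

theorem subset_growT (G Bt : Finset (Finset α)) (Y : ℝ) (t : Finset α) :
    Bt ⊆ growT τ Y₁ G Y Bt t := by
  unfold growT
  split_ifs
  · exact subset_union_left
  · exact Subset.rfl

theorem tflat_next (hd : Sharp.Dense G B Y w) (t : Finset α) :
    TFlat τ Y₁ (G \ sides t) (Sharp.nextY G Y) (growT τ Y₁ G Y Bt t) := by
  intro hY e he hB
  rw [growT, if_pos (hY.trans_le hd.nextY_le)] at hB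
  simp only [mem_union, mem_filter, not_or, not_and, not_lt] at hB
  exact hB.2 he

theorem tee_nonneg (G Bt : Finset (Finset α)) (Y : ℝ) : 0 ≤ tee τ Y₁ G Y Bt := by
  unfold tee
  have := cube_nonneg G Y
  split_ifs <;> positivity

theorem card_le_tee (G Bt : Finset (Finset α)) (Y : ℝ) :
    τ ^ 2 * ((G ∩ Bt).card : ℝ) ≤ tee τ Y₁ G Y Bt := by
  unfold tee
  have := cube_nonneg G Y
  refine le_add_of_nonneg_right ?_
  split_ifs <;> positivity

theorem sum_deg_phi (hY : 0 < Y) :
    ∑ t ∈ tri G, ∑ i ∈ sides t, phi (zeta G Y i - 1) ≤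
      30 * (Y * Sharp.phiSum G Y) + Y * diss G Y := by
  rw [sum_tri_sides, Sharp.phiSum, diss, mul_sum, mul_sum, mul_sum, ← sum_add_distrib]
  refine sum_le_sum fun e _ => ?_
  have hz := Sharp.zeta_nonneg' (G := G) hY e
  have hp := phi_nonneg (zeta G Y e - 1)
  have ha := excess_nonneg G Y e
  rw [show (deg G e : ℝ) = Y * zeta G Y e by rw [zeta]; field_simp, mul_assoc,
    show 30 * (Y * phi (zeta G Y e - 1)) + Y * (zeta G Y e * excess G Y e ^ 3)
      = Y * (30 * phi (zeta G Y e - 1) + zeta G Y e * excess G Y e ^ 3) by ring]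
  refine mul_le_mul_of_nonneg_left ?_ hY.le
  rcases le_or_gt (zeta G Y e) 30 with h | h
  · have := mul_le_mul_of_nonneg_right h hp
    have : 0 ≤ zeta G Y e * excess G Y e ^ 3 := by positivity
    linarith
  · have h1 : phi (zeta G Y e - 1) ≤ zeta G Y e :=
      (Sharp.phi_le_abs _).trans (abs_le.2 ⟨by linarith, by linarith⟩)
    have h2 : 26 ≤ excess G Y e := le_trans (by linarith) (le_max_left _ _)
    have h3 : zeta G Y e ≤ excess G Y e ^ 3 := by
      have : zeta G Y e - 4 ≤ excess G Y e := le_max_left _ _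
      have : excess G Y e * (26 * 26) ≤ excess G Y e * (excess G Y e * excess G Y e) :=
        mul_le_mul_of_nonneg_left (mul_le_mul h2 h2 (by norm_num) ha) ha
      linarith
    have := mul_le_mul_of_nonneg_left (h1.trans h3) hz
    linarith

theorem sum_kill_le' (hd : Sharp.Dense G B Y w) :
    7 / Y ^ 2 * ∑ e ∈ G, Sharp.kill G e ≤ 756 * (G.card : ℝ) + 21 * diss G Y := by
  have hY := hd.pos
  rw [Sharp.sum_kill_eq]
  have h1 := sum_dkill G (fun _ => (1 : ℝ))
  simp only [mul_one, one_mul] at h1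
  rw [h1]
  have h2 : ∑ k ∈ tri G, ∑ i ∈ sides k, ((∑ j ∈ sides k, (deg G j : ℝ)) - deg G i - 2) ≤
      3 * ∑ e ∈ G, (deg G e : ℝ) * deg G e := by
    rw [← sum_tri_sides, mul_sum]
    refine sum_le_sum fun k hk => ?_
    rw [sum_sub_distrib, sum_sub_distrib, sum_const, card_sides hk, nsmul_eq_mul, sum_const,
      card_sides hk]
    have := sum_nonneg (s := sides k) (fun i _ => (Nat.cast_nonneg (deg G i) : (0 : ℝ) ≤ _))
    push_cast
    simp only [nsmul_eq_mul, Nat.cast_ofNat]
    linarith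
  refine (mul_le_mul_of_nonneg_left h2 (by positivity)).trans ?_
  rw [diss, mul_sum, mul_sum, mul_sum,
    show 756 * (G.card : ℝ) = ∑ _e ∈ G, 756 by rw [sum_const, nsmul_eq_mul, mul_comm],
    ← sum_add_distrib]
  refine sum_le_sum fun e _ => ?_
  have hz := Sharp.zeta_nonneg' (G := G) hY e
  have ha := excess_nonneg G Y e
  rw [show (deg G e : ℝ) = Y * zeta G Y e by rw [zeta]; field_simp]
  field_simp
  rcases le_or_gt (zeta G Y e) 6 with h | h
  · have := mul_le_mul h h hz (by norm_num)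
    have : 0 ≤ zeta G Y e * excess G Y e ^ 3 := by positivity
    linarith
  · have h2 : zeta G Y e - 4 ≤ excess G Y e := le_max_left _ _
    have h3 : zeta G Y e ≤ excess G Y e ^ 3 := by
      nlinarith [mul_le_mul_of_nonneg_left (show 4 ≤ excess G Y e * excess G Y e by nlinarith) ha]
    have := mul_le_mul_of_nonneg_left h3 hz
    linarith

theorem tee_step (hd : Sharp.Dense G B Y w) (hτ : 0 ≤ τ) (hτ' : τ ≤ 1 / 10)
    (hY₁ : Y₁ < Y) (hf : TFlat τ Y₁ G Y Bt) :
    ∑ t ∈ tri G, tee τ Y₁ (G \ sides t) (Sharp.nextY G Y) (growT τ Y₁ G Y Bt t) ≤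
      Sharp.triNum G * tee τ Y₁ G Y Bt + 3 * 10 ^ 6 * (Y * Sharp.phiSum G Y)
        + 800 * (G.card : ℝ) := by
  classical
  have hY := hd.pos
  set U := G \ Bt with hU
  have point : ∀ t ∈ tri G, tee τ Y₁ (G \ sides t) (Sharp.nextY G Y) (growT τ Y₁ G Y Bt t) ≤
      τ ^ 2 * ((G ∩ Bt).card : ℝ) + 3002 * cube (G \ sides t) (Sharp.nextY G Y)
        + ∑ e ∈ U \ sides t, (zeta G Y e + Sharp.hh G Y t e - 1) ^ 2 := by
    intro t ht
    set G' := G \ sides t with hG'
    set Y' := Sharp.nextY G Y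
    set N := G'.filter fun e => τ < |zeta G' Y' e - 1| with hN
    rw [growT, if_pos hY₁, ← hG', ← hN]
    have e1 : G' \ (Bt ∪ N) = (G' \ Bt) \ (N \ Bt) := by
      ext e; simp only [mem_sdiff, mem_union]; tauto
    have e2 : G' ∩ (Bt ∪ N) = (G' ∩ Bt) ∪ (N \ Bt) := by
      have hs : N ⊆ G' := filter_subset _ _
      ext e; simp only [mem_inter, mem_union, mem_sdiff]
      have := @hs e; tauto
    have hsub : N \ Bt ⊆ G' \ Bt := sdiff_subset_sdiff (filter_subset _ _) le_rfl
    have e3 : U \ sides t = G' \ Bt := by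
      ext e; simp only [hU, hG', mem_sdiff]; tauto
    have hz : ∀ e ∈ G', zeta G' Y' e = zeta G Y e + Sharp.hh G Y t e :=
      fun e he => hd.zeta_next (mem_sdiff.1 he).2
    have c0 := cube_nonneg G' Y'
    rw [tee, e2, e1, e3, ← sum_sdiff hsub
      (f := fun e => (zeta G Y e + Sharp.hh G Y t e - 1) ^ 2)]
    have c1 : τ ^ 2 * (((G' ∩ Bt) ∪ (N \ Bt)).card : ℝ) ≤
        τ ^ 2 * ((G ∩ Bt).card : ℝ)
          + ∑ e ∈ N \ Bt, (zeta G Y e + Sharp.hh G Y t e - 1) ^ 2 := by
      refine (mul_le_mul_of_nonneg_left (Nat.cast_le.2 (card_union_le _ _)) (sq_nonneg τ)).trans ?_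
      push_cast
      rw [mul_add]
      refine add_le_add (mul_le_mul_of_nonneg_left (Nat.cast_le.2 (card_le_card
        (inter_subset_inter_right sdiff_subset))) (sq_nonneg τ)) ?_
      rw [mul_comm, ← nsmul_eq_mul, ← sum_const]
      refine sum_le_sum fun e he => ?_
      obtain ⟨he', hgt⟩ := mem_filter.1 (mem_sdiff.1 he).1
      rw [hz e he'] at hgt
      calc τ ^ 2 ≤ |zeta G Y e + Sharp.hh G Y t e - 1| ^ 2 := pow_le_pow_left₀ hτ hgt.le 2
        _ = _ := sq_abs _
    have c2 : (if Y₁ < Y' then ∑ e ∈ (G' \ Bt) \ (N \ Bt), (zeta G' Y' e - 1) ^ 2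
        + 3002 * cube G' Y' else 0) ≤
        ∑ e ∈ (G' \ Bt) \ (N \ Bt), (zeta G Y e + Sharp.hh G Y t e - 1) ^ 2
        + 3002 * cube G' Y' := by
      split_ifs
      · rw [sum_congr rfl (fun e he => show (zeta G' Y' e - 1) ^ 2
          = (zeta G Y e + Sharp.hh G Y t e - 1) ^ 2 by
            rw [hz e (mem_sdiff.1 (mem_sdiff.1 he).1).1])]
      · positivity
    linarith
  refine (sum_le_sum point).trans ?_
  rw [sum_add_distrib, sum_add_distrib, sum_const, nsmul_eq_mul, Sharp.sum_avoid_comm G U,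
    ← mul_sum, tee, if_pos hY₁, ← hU]
  have main : ∀ e ∈ U, ∑ t ∈ (tri G).filter (e ∉ sides ·),
        (zeta G Y e + Sharp.hh G Y t e - 1) ^ 2
      ≤ Sharp.triNum G * (zeta G Y e - 1) ^ 2
        + (∑ k ∈ (tri G).filter (e ∈ sides ·), ((∑ i ∈ sides k, 300 * phi (zeta G Y i - 1))
            + 600 * phi (zeta G Y e - 1)))
        + (20 + 7 / Y ^ 2 * Sharp.kill G e) := by
    intro e he
    obtain ⟨heG, heB⟩ := mem_sdiff.1 he
    have hflat : |zeta G Y e - 1| ≤ 1 / 10 := (hf hY₁ e heG heB).trans hτ'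
    obtain ⟨hy1, hy2⟩ := abs_le.1 hflat
    have hs := hd.drop_nonneg
    have ex : ∑ t ∈ (tri G).filter (e ∉ sides ·), (zeta G Y e + Sharp.hh G Y t e - 1) ^ 2
        = (Sharp.triNum G - deg G e) * (zeta G Y e - 1) ^ 2
          + 2 * (zeta G Y e - 1) * (∑ t ∈ (tri G).filter (e ∉ sides ·), Sharp.hh G Y t e)
          + ∑ t ∈ (tri G).filter (e ∉ sides ·), Sharp.hh G Y t e ^ 2 := by
      rw [← Sharp.card_avoid, ← nsmul_eq_mul, ← sum_const, mul_sum, ← sum_add_distrib,
        ← sum_add_distrib]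
      exact sum_congr rfl fun t _ => by ring
    rw [ex]
    have p1 : 0 ≤ (deg G e : ℝ) * (zeta G Y e - 1) ^ 2 := by positivity
    have p2 : 2 * (zeta G Y e - 1) * (∑ t ∈ (tri G).filter (e ∉ sides ·), Sharp.hh G Y t e)
        ≤ (∑ k ∈ (tri G).filter (e ∈ sides ·), ((∑ i ∈ sides k, 300 * phi (zeta G Y i - 1))
            + 600 * phi (zeta G Y e - 1))) + 2 := by
      rw [hd.sum_hh heG, mul_sum]
      refine (sum_le_sum (g := fun k => (∑ i ∈ sides k, 300 * phi (zeta G Y i - 1))
        + 600 * phi (zeta G Y e - 1) + 6 / 5 * (1 / Y)) fun k hk => ?_).trans ?_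
      · simp only [mem_filter] at hk
        set z := fun i => zeta G Y i - 1 with hz
        have hside : side G Y k - zeta G Y e = 2 + ∑ i ∈ (sides k).erase e, z i := by
          simp only [hz, side]
          rw [← add_sum_erase _ _ hk.2, sum_sub_distrib, sum_const, card_erase_of_mem hk.2,
            card_sides hk.1]
          simp
        rw [show side G Y k - zeta G Y e - 2 / Y = 2 + (∑ i ∈ (sides k).erase e, z i) - 2 / Y by
          rw [← hside]]
        set Z := ∑ i ∈ (sides k).erase e, z i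
        have hzz : |z e| * |Z| ≤ ∑ i ∈ sides k, 100 * phi (z i) + 200 * phi (z e) := by
          refine (mul_le_mul_of_nonneg_left (abs_sum_le_sum_abs _ _) (abs_nonneg _)).trans ?_
          rw [mul_sum]
          refine (sum_le_sum (g := fun i => 100 * (phi (z e) + phi (z i))) fun i _ =>
            Sharp.abs_mul_le_phi hflat (by
              have := Sharp.zeta_nonneg' (G := G) hY i; simp only [hz]; linarith)).trans ?_
          simp only [mul_add, sum_add_distrib, sum_const, card_erase_of_mem hk.2, card_sides hk.1]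
          have : ∑ i ∈ (sides k).erase e, 100 * phi (z i) ≤ ∑ i ∈ sides k, 100 * phi (z i) :=
            sum_le_sum_of_subset_of_nonneg (erase_subset _ _) fun i _ _ => by
              have := phi_nonneg (z i); positivity
          simp
          linarith
        have hlin : |2 - (1 + Sharp.drop G Y) * (2 + Z - 2 / Y) - Sharp.drop G Y * zeta G Y e|
            ≤ 101 / 100 * |Z| + 6 / Y := by
          have a1 := hd.drop_le_inv
          have a2 := hd.drop_small
          have a3 : Sharp.drop G Y * zeta G Y e ≤ 11 / 10 * (1 / Y) :=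
            (mul_le_mul a1 (show zeta G Y e ≤ 11 / 10 by linarith) (Sharp.zeta_nonneg' hY e)
              (by positivity)).trans (by linarith)
          have a4 : 0 ≤ Sharp.drop G Y * zeta G Y e := mul_nonneg hs (Sharp.zeta_nonneg' hY e)
          have a5 : Sharp.drop G Y * (2 / Y) ≤ 1 / Y := by
            have : Sharp.drop G Y * (2 / Y) ≤ 1 / 1000 * (2 / Y) :=
              mul_le_mul_of_nonneg_right a2 (by positivity)
            have e : (2 : ℝ) / Y = 2 * (1 / Y) := by ring
            have : 0 ≤ 1 / Y := by positivity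
            linarith
          have a6 : |(1 + Sharp.drop G Y) * Z| ≤ 101 / 100 * |Z| := by
            rw [abs_mul, abs_of_nonneg (show 0 ≤ 1 + Sharp.drop G Y by linarith)]
            exact mul_le_mul_of_nonneg_right (by linarith) (abs_nonneg _)
          obtain ⟨a7, a8⟩ := abs_le.1 a6
          have : 0 ≤ Sharp.drop G Y * (2 / Y) := by positivity
          have e6 : (6 : ℝ) / Y = 6 * (1 / Y) := by ring
          have e2 : (2 : ℝ) / Y = 2 * (1 / Y) := by ring
          rw [abs_le]; constructor <;> linarith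
        calc 2 * (zeta G Y e - 1) * (2 - (1 + Sharp.drop G Y) * (2 + Z - 2 / Y)
              - Sharp.drop G Y * zeta G Y e)
            ≤ 2 * |z e| * (101 / 100 * |Z| + 6 / Y) := by
              refine (le_abs_self _).trans ?_
              rw [abs_mul, abs_mul, abs_of_pos (show (0 : ℝ) < 2 by norm_num)]
              exact mul_le_mul_of_nonneg_left hlin (by positivity)
          _ = 101 / 50 * (|z e| * |Z|) + 12 * (|z e| * (1 / Y)) := by ring
          _ ≤ _ := by
              have y2 : |z e| * (1 / Y) ≤ 1 / 10 * (1 / Y) :=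
                mul_le_mul_of_nonneg_right hflat (by positivity)
              have q1 := phi_nonneg (z e)
              have q2 : 0 ≤ ∑ i ∈ sides k, phi (z i) := sum_nonneg fun i _ => phi_nonneg _
              simp only [← mul_sum] at hzz ⊢
              simp only [hz] at *
              linarith
      · rw [sum_add_distrib (g := fun _ => 6 / 5 * (1 / Y)), sum_const, nsmul_eq_mul]
        refine add_le_add le_rfl ?_
        change (deg G e : ℝ) * _ ≤ _
        rw [show (deg G e : ℝ) = Y * zeta G Y e by rw [zeta]; field_simp]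
        field_simp
        linarith
    have p3 : ∑ t ∈ (tri G).filter (e ∉ sides ·), Sharp.hh G Y t e ^ 2
        ≤ 10 + 7 / Y ^ 2 * Sharp.kill G e := by
      have b1 : 4 * Y * Sharp.drop G Y * zeta G Y e ^ 2 ≤ 10 := by
        have : Y * Sharp.drop G Y ≤ 1 := by
          have := hd.drop_le_inv; rw [le_div_iff₀ hY] at this; linarith
        nlinarith [sq_nonneg (zeta G Y e), mul_nonneg hY.le hs]
      linarith [hd.sum_hh_sq e]
    linarith
  have t1 : ∑ e ∈ U, ∑ k ∈ (tri G).filter (e ∈ sides ·),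
        ((∑ i ∈ sides k, 300 * phi (zeta G Y i - 1)) + 600 * phi (zeta G Y e - 1))
      ≤ 1500 * (30 * (Y * Sharp.phiSum G Y) + Y * diss G Y) := by
    refine (sum_le_sum_of_subset_of_nonneg sdiff_subset fun e _ _ => sum_nonneg fun k _ =>
      add_nonneg (sum_nonneg fun i _ => mul_nonneg (by norm_num) (phi_nonneg _))
        (mul_nonneg (by norm_num) (phi_nonneg _))).trans ?_
    rw [Sharp.sum_star G (fun k i => (∑ j ∈ sides k, 300 * phi (zeta G Y j - 1))
      + 600 * phi (zeta G Y i - 1))]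
    refine le_trans (le_of_eq ?_) (mul_le_mul_of_nonneg_left (sum_deg_phi hY) (by norm_num))
    rw [mul_sum]
    refine sum_congr rfl fun t ht => ?_
    simp only [sum_add_distrib, sum_const, card_sides ht, ← mul_sum]
    ring
  have t2 : ∑ e ∈ U, 7 / Y ^ 2 * Sharp.kill G e ≤ 756 * (G.card : ℝ) + 21 * diss G Y := by
    rw [← mul_sum]
    refine le_trans (mul_le_mul_of_nonneg_left (sum_le_sum_of_subset_of_nonneg sdiff_subset
      fun e _ _ => Sharp.kill_nonneg G e) (by positivity)) (sum_kill_le' hd)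
  have t3 : (U.card : ℝ) ≤ G.card := by exact_mod_cast card_le_card sdiff_subset
  have t4 := cube_step hd
  have t5 := sum_le_sum main
  rw [sum_add_distrib, sum_add_distrib, sum_add_distrib, sum_const, nsmul_eq_mul,
    ← mul_sum] at t5
  have hD3 := diss_nonneg (G := G) hY
  have hL := hd.large
  have h21 : 21 * diss G Y ≤ Y * diss G Y := mul_le_mul_of_nonneg_right (by linarith) hD3
  have hΦ : 0 ≤ Y * Sharp.phiSum G Y := mul_nonneg hY.le (Sharp.phiSum_nonneg G Y)
  have : (Sharp.triNum G : ℝ) = ((tri G).card : ℝ) := rfl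
  have : (0 : ℝ) ≤ G.card := Nat.cast_nonneg _
  rw [mul_add, mul_add]
  simp only [Sharp.triNum] at *
  linarith

/-- The weight of the tainted edges. -/
noncomputable def kap (Y₁ : ℝ) : ℝ := Real.sqrt Y₁ * Sharp.cap Y₁ / 10 ^ 8

/-- The tainted edges together with the absorber are a supersolution. -/
theorem tee_super {n : ℕ} {D C : ℝ} (h9 : 10 ^ 9 ≤ D) (hc : Sharp.cap D ≤ 1 / 1000)
    {Ab : Finset (Finset (Fin n)) → Finset (Finset (Fin n)) → ℝ → (Finset (Fin n) → ℝ) → ℝ}
    (hA : Absorber n D C Ab) {τ Y₁ : ℝ} (hτ : 0 ≤ τ) (hτ' : τ ≤ 1 / 10) (hY0 : 0 < Y₁)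
    {G B Bt : Finset (Finset (Fin n))} {Y : ℝ} {w : Finset (Fin n) → ℝ}
    (hi : Inv n D G B Y w) (hf : TFlat τ Y₁ G Y Bt) (hg : Go D G Y) :
    ∑ t ∈ tri G, (kap Y₁ * tee τ Y₁ (G \ sides t) (Sharp.nextY G Y) (growT τ Y₁ G Y Bt t)
      + Ab (G \ sides t) (Sharp.nextB G B Y t) (Sharp.nextY G Y) (Sharp.nextW G B Y w t)) ≤
      Sharp.triNum G * (kap Y₁ * tee τ Y₁ G Y Bt + Ab G B Y w) := by
  have hd := dense_of_go h9 hc hi hg
  have hY := hd.pos
  have hk : 0 ≤ kap Y₁ := by
    have := Sharp.cap_pos hY0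
    unfold kap; positivity
  have hA' := hA.step G B Y w hi hg
  have hp := Sharp.psi_nonneg G Y w
  have hs := Sharp.sq_nonneg' G w
  have hc0 := Sharp.cap_pos hY
  have hb0 : 0 ≤ bud G Y w := by unfold bud marg src; positivity
  rw [sum_add_distrib, ← mul_sum]
  rcases le_or_gt Y Y₁ with h | h
  · have h1 : ∀ t ∈ tri G, tee τ Y₁ (G \ sides t) (Sharp.nextY G Y) (growT τ Y₁ G Y Bt t) ≤
        tee τ Y₁ G Y Bt := fun t _ => by
      rw [growT, if_neg (not_lt.2 h), tee, tee, if_neg (not_lt.2 h),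
        if_neg (not_lt.2 (hd.nextY_le.trans h))]
      gcongr
      exact sdiff_subset
    have h2 := mul_le_mul_of_nonneg_left (sum_le_sum h1) hk
    rw [sum_const, nsmul_eq_mul] at h2
    rw [Sharp.triNum] at *
    linarith
  · have h1 := mul_le_mul_of_nonneg_left (tee_step hd hτ hτ' h hf) hk
    have h2 := hd.phiSum_bulk
    have h3 : kap Y₁ * 10 ^ 8 ≤ Real.sqrt Y * Sharp.cap Y := by
      rw [kap, div_mul_cancel₀ _ (by norm_num)]
      exact Sharp.sqrt_cap_mono hY0 h.le
    have h4 : kap Y₁ * (3 * 10 ^ 6 * (Y * Sharp.phiSum G Y) + 800 * (G.card : ℝ)) ≤ bud G Y w := by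
      have e : bud G Y w = 2 * Y * (Real.sqrt Y * Sharp.cap Y * (Sharp.psi G Y w + Sharp.sq G w))
          + 2 * (Real.sqrt Y * Sharp.cap Y) * (G.card : ℝ) := by
        rw [bud, marg, src, mul_add]
        congr 1
        field_simp
        rw [Real.sq_sqrt hY.le]
        ring
      have k1 := mul_le_mul_of_nonneg_left (show 3 * 10 ^ 6 * Sharp.phiSum G Y ≤
        10 ^ 8 * (Sharp.psi G Y w + Sharp.sq G w) by linarith) (mul_nonneg hY.le hk)
      have k2 := mul_le_mul_of_nonneg_right h3 (mul_nonneg hY.le (add_nonneg hp hs))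
      have k3 := mul_le_mul_of_nonneg_right h3 (Nat.cast_nonneg G.card : (0 : ℝ) ≤ _)
      have k4 : 0 ≤ kap Y₁ * (G.card : ℝ) := by positivity
      have k5 : 0 ≤ Y * (Real.sqrt Y * Sharp.cap Y) * (Sharp.psi G Y w + Sharp.sq G w) := by
        positivity
      rw [e]
      linarith
    linarith

end Vale.Agent.P046.Limit.A2
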