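import Vale.Agent.P046.Limit.A2.Family
import Vale.Agent.P046.Limit.A2.Taint

/-!
P046, the limit constant, module Short: at the scale `D` only `o(n^{3/2})` edges lie on a short cycle
of triangles.
-/

open Finset Filter

namespace Vale.Agent.P046.Limit.A2

section Spread

variable {ι : Type*} [DecidableEq ι]

/-- The points within one block of `X`. -/
def spreadX (H : Finset (Finset ι)) (X : Finset ι) : Finset ι :=
  X ∪ (H.filter fun k => ¬Disjoint k X).biUnion id

theorem subset_iter_spreadX (H : Finset (Finset ι)) (X : Finset ι) {a b : ℕ} (hab : a ≤ b) :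
    (spreadX H)^[a] X ⊆ (spreadX H)^[b] X := by
  induction hab with
  | refl => exact Subset.rfl
  | step _ ih =>
    rw [Function.iterate_succ_apply']
    exact ih.trans subset_union_left

theorem block_subset_spreadX {H : Finset (Finset ι)} {X k : Finset ι} (hk : k ∈ H)
    (h : ¬Disjoint k X) : k ⊆ spreadX H X := fun _ hy =>
  mem_union_right _ (mem_biUnion.2 ⟨k, mem_filter.2 ⟨hk, h⟩, hy⟩)

theorem card_spreadX_le {H : Finset (Finset ι)} (h3 : ∀ k ∈ H, k.card = 3) (X : Finset ι) :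
    ((spreadX H X).card : ℝ) ≤ X.card + 3 * ∑ e ∈ X, dg H e := by
  have h1 : (H.filter fun k => ¬Disjoint k X).card ≤ ∑ e ∈ X, (blocksAt H e).card := by
    refine (card_le_card fun k hk => ?_).trans card_biUnion_le
    obtain ⟨hkH, hd⟩ := mem_filter.1 hk
    obtain ⟨e, he, heX⟩ := not_disjoint_iff.1 hd
    exact mem_biUnion.2 ⟨e, heX, mem_filter.2 ⟨hkH, he⟩⟩
  have h2 : (spreadX H X).card ≤ X.card + 3 * ∑ e ∈ X, (blocksAt H e).card := by
    refine (card_union_le _ _).trans (Nat.add_le_add_left ?_ _)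
    refine (card_biUnion_le_card_mul _ _ 3 fun k hk => (h3 k (mem_filter.1 hk).1).le).trans ?_
    rw [mul_comm]
    exact Nat.mul_le_mul_left _ h1
  calc ((spreadX H X).card : ℝ) ≤ ((X.card + 3 * ∑ e ∈ X, (blocksAt H e).card : ℕ) : ℝ) :=
        Nat.cast_le.2 h2
    _ = _ := by push_cast; rfl

end Spread

theorem spreadX_subset {n : ℕ} {G X : Finset (Finset (Fin n))} (hX : X ⊆ G) (r : ℕ) :
    (spreadX (blocks G))^[r] X ⊆ G := by
  induction r with
  | zero => exact hX
  | succ r ih =>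
    rw [Function.iterate_succ_apply']
    exact union_subset ih (biUnion_subset.2 fun k hk => blocks_sub (mem_filter.1 hk).1)

/-- Few points spread to few points. -/
theorem spreadX_bound {D : ℝ} (hD : 0 < D) (r : ℕ) : ∀ η : ℝ, 0 < η → ∃ A : ℝ, 0 ≤ A ∧
    ∀ (n : ℕ) (G X : Finset (Finset (Fin n))) (Y : ℝ), X ⊆ G → D / 2 ≤ Y → Y ≤ D →
      (((spreadX (blocks G))^[r] X).card : ℝ) ≤ A * (X.card : ℝ) + η * cube G Y := by
  induction r with
  | zero =>
    intro η hη
    refine ⟨1, zero_le_one, fun n G X Y _ _ _ => ?_⟩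
    have := cube_nonneg G Y
    simp only [Function.iterate_zero, id]
    nlinarith
  | succ r ih =>
    intro η hη
    set M := max (10 * D + 1) (48 * D ^ 3 / η) with hMdef
    have hM : 10 * D + 1 ≤ M := le_max_left _ _
    have hM0 : 0 < M := by linarith
    obtain ⟨A, hA, ha⟩ := ih (η / (2 * (1 + 3 * M))) (by positivity)
    refine ⟨(1 + 3 * M) * A, by positivity, fun n G X Y hX hY hYD => ?_⟩
    set Z := (spreadX (blocks G))^[r] X with hZ
    have hZG : Z ⊆ G := spreadX_subset hX r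
    rw [Function.iterate_succ_apply', ← hZ]
    refine (card_spreadX_le (blocks_card3 G) Z).trans ?_
    have hdeg : ∑ e ∈ Z, dg (blocks G) e ≤ M * (Z.card : ℝ) + 8 * D ^ 3 / M ^ 2 * cube G Y := by
      rw [show M * (Z.card : ℝ) = ∑ _e ∈ Z, M by rw [sum_const, nsmul_eq_mul, mul_comm],
        cube, mul_sum]
      refine le_trans ?_ (add_le_add le_rfl (sum_le_sum_of_subset_of_nonneg hZG fun e _ _ => by
        have := excess_nonneg G Y e; positivity))
      rw [← sum_add_distrib]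
      refine sum_le_sum fun e _ => ?_
      rw [dg_blocks]
      have h0 : 0 ≤ 8 * D ^ 3 / M ^ 2 * excess G Y e ^ 3 := by
        have := excess_nonneg G Y e; positivity
      rcases le_or_gt (deg G e : ℝ) M with h | h
      · linarith
      · linarith [(big_deg hY hYD hD (show 10 * D ≤ M by linarith) h).2]
    have h1 := mul_le_mul_of_nonneg_left (ha n G X Y hX hY hYD)
      (show (0 : ℝ) ≤ 1 + 3 * M by linarith)
    rw [← hZ, mul_add, ← mul_assoc, ← mul_assoc,
      show (1 + 3 * M) * (η / (2 * (1 + 3 * M))) = η / 2 by field_simp] at h1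
    have h2 : 24 * D ^ 3 / M ^ 2 ≤ η / 2 := by
      have hm1 : 1 ≤ M := by linarith
      have hm2 : 48 * D ^ 3 / η ≤ M := le_max_right _ _
      rw [div_le_iff₀ hη] at hm2
      rw [div_le_iff₀ (by positivity)]
      have := mul_le_mul_of_nonneg_left hm1 (mul_nonneg hη.le hM0.le)
      linarith
    have h3 := mul_le_mul_of_nonneg_right h2 (cube_nonneg G Y)
    have h4 : 3 * (8 * D ^ 3 / M ^ 2 * cube G Y) = 24 * D ^ 3 / M ^ 2 * cube G Y := by ring
    linarith

/-- A point on a short cycle lies on an untainted one or near a tainted point. -/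
theorem bad_subset {n L : ℕ} {G Bt : Finset (Finset (Fin n))} (hG : G ⊆ complete n)
    {i : Finset (Fin n)} (hi : ¬GoodAt (blocks G) L i) :
    i ∈ ((range (2 * L + 1)).biUnion fun q => (alive n q G Bt).biUnion id) ∪
      (spreadX (blocks G))^[2 * L + 3] (G ∩ Bt) := by
  obtain ⟨q, hq, f, x, h⟩ := exists_ring (blocks_card3 G) (blocks_lin G) hi
  have hiS : i ∈ (range (q + 2)).biUnion f :=
    mem_biUnion.2 ⟨0, by simp, h.start ▸ h.left 0 (by omega)⟩
  have hSG : (range (q + 2)).biUnion f ⊆ G := biUnion_subset.2 fun l hl =>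
    blocks_sub (h.mem l (by rw [mem_range] at hl; omega))
  by_cases hsub : (range (q + 2)).biUnion f ⊆ G \ Bt
  · exact mem_union_left _ (mem_biUnion.2 ⟨q, by rw [mem_range]; omega,
      mem_biUnion.2 ⟨_, mem_filter.2 ⟨ring_mem_fam hG h, hsub⟩, hiS⟩⟩)
  refine mem_union_right _ ?_
  obtain ⟨y, hy, hyB⟩ := not_subset.1 hsub
  have hyX : y ∈ G ∩ Bt :=
    mem_inter.2 ⟨hSG hy, by_contra fun h' => hyB (mem_sdiff.2 ⟨hSG hy, h'⟩)⟩
  obtain ⟨l, hl, hyl⟩ := mem_biUnion.1 hy
  rw [mem_range] at hl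
  have down : ∀ a ≤ l, f (l - a) ⊆ (spreadX (blocks G))^[a + 1] (G ∩ Bt) := by
    intro a ha
    induction a with
    | zero => exact block_subset_spreadX (h.mem l (by omega)) (not_disjoint_iff.2 ⟨y, hyl, hyX⟩)
    | succ a ih =>
      rw [Function.iterate_succ_apply']
      refine block_subset_spreadX (h.mem _ (by omega)) fun hd => ?_
      have hm := h.meet (l - (a + 1)) (by omega)
      rw [show l - (a + 1) + 1 = l - a by omega] at hm
      exact hm (hd.mono_right (ih (by omega)))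
  have := down l le_rfl
  rw [Nat.sub_self] at this
  exact subset_iter_spreadX _ _ (show l + 1 ≤ 2 * L + 3 by omega)
    (this (h.start ▸ h.left 0 (by omega)))

theorem bad_card_le {n L : ℕ} {G Bt : Finset (Finset (Fin n))} (hG : G ⊆ complete n) :
    open Classical in
    ((G.filter fun e => ¬GoodAt (blocks G) L e).card : ℝ) ≤
      ∑ q ∈ range (2 * L + 1), ((2 * q + 4 : ℕ) : ℝ) * ((alive n q G Bt).card : ℝ)
        + (((spreadX (blocks G))^[2 * L + 3] (G ∩ Bt)).card : ℝ) := by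
  classical
  have h : (G.filter fun e => ¬GoodAt (blocks G) L e).card ≤
      ∑ q ∈ range (2 * L + 1), (2 * q + 4) * (alive n q G Bt).card
        + ((spreadX (blocks G))^[2 * L + 3] (G ∩ Bt)).card := by
    refine (card_le_card fun i hi => bad_subset (Bt := Bt) hG (mem_filter.1 hi).2).trans
      ((card_union_le _ _).trans (Nat.add_le_add_right ?_ _))
    refine card_biUnion_le.trans (sum_le_sum fun q _ => ?_)
    rw [mul_comm]
    exact card_biUnion_le_card_mul _ _ _ fun S hS =>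
      (mem_filter.1 (mem_filter.1 hS).1).2.le
  calc _ ≤ ((∑ q ∈ range (2 * L + 1), (2 * q + 4) * (alive n q G Bt).card
          + ((spreadX (blocks G))^[2 * L + 3] (G ∩ Bt)).card : ℕ) : ℝ) := Nat.cast_le.2 h
    _ = _ := by push_cast; rfl

theorem cyc_start_le {n q P : ℕ} {Y₁ : ℝ} (hP : q + 2 ≤ P) (hn : 4 ≤ n) (hY1 : 1 ≤ Y₁)
    (hYP : Y₁ ^ P ≤ (n : ℝ) ^ (1 / 8 : ℝ)) :
    cyc q Y₁ (complete n) ∅ ((n : ℝ) - 2) ≤ 4 ^ P * (n : ℝ) ^ (11 / 8 : ℝ) := by
  have hn4 : (4 : ℝ) ≤ n := by exact_mod_cast hn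
  have hn0 : (0 : ℝ) < n := by linarith
  have hY0 : 0 < Y₁ := by linarith
  have ha0 : 0 ≤ expo q := by unfold expo; positivity
  have haP : expo q ≤ (P : ℝ) := by
    have : ((q + 2 : ℕ) : ℝ) ≤ P := by exact_mod_cast hP
    push_cast at this
    unfold expo; linarith
  have hw : (Y₁ / max ((n : ℝ) - 2) Y₁) ^ expo q ≤
      (2 : ℝ) ^ P * (n : ℝ) ^ (1 / 8 : ℝ) / (n : ℝ) ^ expo q := by
    have h1 : Y₁ / max ((n : ℝ) - 2) Y₁ ≤ 2 * Y₁ / n := by
      refine (div_le_div_of_nonneg_left hY0.le (by linarith) (le_max_left _ _)).trans ?_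
      rw [div_le_div_iff₀ (by linarith) hn0]
      nlinarith
    refine (Real.rpow_le_rpow (div_nonneg hY0.le (hY0.le.trans (le_max_right _ _))) h1 ha0).trans ?_
    rw [Real.div_rpow (by linarith) hn0.le]
    refine div_le_div_of_nonneg_right ?_ (Real.rpow_nonneg hn0.le _)
    refine (Real.rpow_le_rpow_of_exponent_le (by linarith) haP).trans ?_
    rw [Real.rpow_natCast, mul_pow]
    exact mul_le_mul_of_nonneg_left hYP (by positivity)
  have hc : ((alive n q (complete n) ∅).card : ℝ) ≤ 2 ^ P * (n : ℝ) ^ ((q : ℝ) + 3) := by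
    refine (Nat.cast_le.2 (card_filter_le _ _)).trans ((card_fam_le n q).trans ?_)
    rw [show ((q : ℝ) + 3) = ((q + 3 : ℕ) : ℝ) by push_cast; ring, Real.rpow_natCast, mul_pow,
      show (n : ℝ) ^ 2 / 2 * (2 ^ (q + 1) * (n : ℝ) ^ (q + 1)) = 2 ^ q * (n : ℝ) ^ (q + 3) by ring]
    exact mul_le_mul_of_nonneg_right (pow_le_pow_right₀ one_le_two (by omega)) (by positivity)
  refine (mul_le_mul hc hw (Real.rpow_nonneg (div_nonneg hY0.le
    (hY0.le.trans (le_max_right _ _))) _) (by positivity)).trans (le_of_eq ?_)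
  have e : (n : ℝ) ^ ((q : ℝ) + 3) * ((n : ℝ) ^ (1 / 8 : ℝ) / (n : ℝ) ^ expo q) =
      (n : ℝ) ^ (11 / 8 : ℝ) := by
    rw [← Real.rpow_sub hn0, ← Real.rpow_add hn0]
    congr 1
    unfold expo; ring
  rw [show (4 : ℝ) ^ P = 2 ^ P * 2 ^ P by rw [← mul_pow]; norm_num, ← e]
  ring

/-- Module Short: few short cycles at the scale `D`. -/
theorem stopCycle : StopCycleStmt := by
  obtain ⟨C, D₀, hC, hfac, hab⟩ := exists_absorber
  refine ⟨D₀, fun D hD L δ hδ => ?_⟩
  obtain ⟨h9, hc, h6⟩ := hfac D hD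
  have hD0 : 0 < D := by linarith
  set P := 2 * L + 3 with hP
  set R := C * Real.sqrt D with hR
  have hR0 : 0 ≤ R := by positivity
  set η := δ / (3 * (R + 1)) with hη
  have hη0 : 0 < η := by positivity
  obtain ⟨A, hA0, hspread⟩ := spreadX_bound hD0 P η hη0
  set τ : ℝ := 1 / (8 * P) with hτ
  have hP3 : (3 : ℝ) ≤ P := by
    have : ((3 : ℕ) : ℝ) ≤ P := Nat.cast_le.2 (by omega)
    exact_mod_cast this
  have hτ0 : 0 < τ := by positivity
  have hτ' : τ ≤ 1 / 10 := by
    rw [hτ]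
    exact one_div_le_one_div_of_le (by norm_num) (by linarith)
  set K : ℝ := ((2 * L + 1 : ℕ) : ℝ) * (2 * P) * 4 ^ P with hK
  -- the limits in `n`
  have tY : Tendsto (fun n : ℕ => (n : ℝ) ^ τ) atTop atTop :=
    (tendsto_rpow_atTop hτ0).comp tendsto_natCast_atTop_atTop
  have tk : Tendsto (fun n : ℕ => kap ((n : ℝ) ^ τ)) atTop atTop := by
    have hk : Tendsto kap atTop atTop := by
      refine Tendsto.atTop_div_const (show (0 : ℝ) < 10 ^ 8 by norm_num) ?_
      refine (tendsto_rpow_atTop (show (0 : ℝ) < 12 / 25 by norm_num)).congr' ?_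
      filter_upwards [eventually_gt_atTop 0] with x hx
      rw [Sharp.sqrt_cap_eq hx]
    exact hk.comp tY
  have t8 : Tendsto (fun n : ℕ => (n : ℝ) ^ (1 / 8 : ℝ)) atTop atTop :=
    (tendsto_rpow_atTop (by norm_num)).comp tendsto_natCast_atTop_atTop
  filter_upwards [hab D hD, eventually_ge_atTop (⌈D⌉₊ + 4),
    tY.eventually_ge_atTop (max (D + 1) (32 * (P : ℝ) ^ 2)),
    tk.eventually_ge_atTop (max 1 (3 * A * R / (δ * τ ^ 2))),
    t8.eventually_ge_atTop (3 * K / δ)] with n ⟨Ab, hAb⟩ hn hY1 hkap h8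
  have hnD : D + 4 ≤ n := by
    have h1 : ((⌈D⌉₊ + 4 : ℕ) : ℝ) ≤ n := by exact_mod_cast hn
    push_cast at h1
    linarith [Nat.le_ceil D]
  have hn4 : 4 ≤ n := by omega
  have hn0 : (0 : ℝ) < n := by linarith
  set Y₁ := (n : ℝ) ^ τ with hY₁
  have hY1D : D + 1 ≤ Y₁ := (le_max_left _ _).trans hY1
  have hY1P : 32 * (P : ℝ) ^ 2 ≤ Y₁ := (le_max_right _ _).trans hY1
  have hY0 : 0 < Y₁ := by linarith
  have hk1 : 1 ≤ kap Y₁ := (le_max_left _ _).trans hkap
  have hk2 : 3 * A * R / (δ * τ ^ 2) ≤ kap Y₁ := (le_max_right _ _).trans hkap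
  set k₁ := A / (kap Y₁ * τ ^ 2) with hk₁
  have hk₁0 : 0 ≤ k₁ := by positivity
  have hqP : ∀ q ∈ range (2 * L + 1), q + 2 ≤ P := fun q hq => by
    rw [mem_range] at hq; omega
  set Cy : Finset (Finset (Fin n)) → Finset (Finset (Fin n)) → ℝ → ℝ := fun G Bt Y =>
    ∑ q ∈ range (2 * L + 1), ((2 * q + 4 : ℕ) : ℝ) * cyc q Y₁ G Bt Y with hCy
  let S := fun (G B : Finset (Finset (Fin n))) (Y : ℝ) (w : Finset (Fin n) → ℝ)
      (Bt : Finset (Finset (Fin n))) =>
    Cy G Bt Y + k₁ * (kap Y₁ * tee τ Y₁ G Y Bt + Ab G B Y w) + η * (cube G Y + Ab G B Y w)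
  have main : fromTop n D (badCount L D) ≤ S (complete n) ∅ ((n : ℝ) - 2) (fun _ => 0) ∅ := by
    refine stopE_le_of_aux (fun G Y Bt t => growT τ Y₁ G Y Bt t)
      (I := fun G B Y w Bt => Inv n D G B Y w ∧ TFlat τ Y₁ G Y Bt) (S := S)
      (fun G B Y w Bt hi hg t ht => ⟨hi.1.next h9 hc hg ht,
        tflat_next (dense_of_go h9 hc hi.1 hg) t⟩)
      (fun G B Y w Bt hi hg => ?_) (fun G B Y w Bt hi _ => ?_) _ _ _ _ _
      ⟨inv_start hD0.le hnD, fun _ e he _ => by rw [zeta_start hn4 he]; simpa using hτ0.le⟩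
    · have hd := dense_of_go h9 hc hi.1 hg
      have s1 : ∑ t ∈ tri G, Cy (G \ sides t) (growT τ Y₁ G Y Bt t) (Sharp.nextY G Y) ≤
          Sharp.triNum G * Cy G Bt Y := by
        simp only [hCy]
        rw [sum_comm, mul_sum]
        refine sum_le_sum fun q hq => ?_
        rw [← mul_sum, mul_left_comm]
        refine mul_le_mul_of_nonneg_left ?_ (Nat.cast_nonneg _)
        have hqr : ((q + 2 : ℕ) : ℝ) ≤ P := by exact_mod_cast hqP q hq
        push_cast at hqr
        refine cyc_step hd hY0 ?_ ?_ hi.2 (fun t => growT τ Y₁ G Y Bt t)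
          (fun t _ => subset_growT G Bt Y t)
        · have := pow_le_pow_left₀ (by positivity) hqr 2
          linarith
        · rw [hτ, ← div_eq_mul_one_div, div_le_iff₀ (by positivity)]
          linarith
      have s2 := mul_le_mul_of_nonneg_left
        (tee_super h9 hc hAb hτ0.le hτ' hY0 hi.1 hi.2 hg) hk₁0
      have s3 := mul_le_mul_of_nonneg_left (cube_super h9 hc h6 hAb hi.1 hg) hη0.le
      simp only [S, sum_add_distrib, ← mul_sum] at s2 s3 ⊢
      linarith
    · have hA' := hAb.nonneg G B Y w hi.1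
      have hT := tee_nonneg (τ := τ) (Y₁ := Y₁) G Bt Y
      have hV := cube_nonneg G Y
      have hC0 : 0 ≤ Cy G Bt Y := sum_nonneg fun q _ =>
        mul_nonneg (Nat.cast_nonneg _) (cyc_nonneg q hY0 G Bt Y)
      have hkn : 0 ≤ k₁ * (kap Y₁ * tee τ Y₁ G Y Bt + Ab G B Y w) :=
        mul_nonneg hk₁0 (add_nonneg (mul_nonneg (by linarith) hT) hA')
      have hηn : 0 ≤ η * (cube G Y + Ab G B Y w) := mul_nonneg hη0.le (add_nonneg hV hA')
      unfold badCount
      split_ifs with hYD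
      · have hYY : Y ≤ Y₁ := by linarith
        refine (bad_card_le (Bt := Bt) hi.1.2.1).trans ?_
        have e1 : ∑ q ∈ range (2 * L + 1), ((2 * q + 4 : ℕ) : ℝ) * ((alive n q G Bt).card : ℝ)
            = Cy G Bt Y := sum_congr rfl fun q _ => by rw [cyc_stop q hY0 G Bt hYY]
        have e2 := hspread n G (G ∩ Bt) Y inter_subset_left hi.1.2.2.1 hYD
        have e3 : A * ((G ∩ Bt).card : ℝ) ≤ k₁ * (kap Y₁ * tee τ Y₁ G Y Bt) := by
          calc A * ((G ∩ Bt).card : ℝ) = k₁ * (kap Y₁ * (τ ^ 2 * ((G ∩ Bt).card : ℝ))) := by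
                rw [hk₁]; field_simp
            _ ≤ _ := mul_le_mul_of_nonneg_left
              (mul_le_mul_of_nonneg_left (card_le_tee G Bt Y) (by linarith)) hk₁0
        have e4 : η * cube G Y ≤ η * (cube G Y + Ab G B Y w) :=
          mul_le_mul_of_nonneg_left (le_add_of_nonneg_right hA') hη0.le
        have e5 : 0 ≤ k₁ * Ab G B Y w := mul_nonneg hk₁0 hA'
        simp only [S]
        rw [e1]
        linarith
      · exact add_nonneg (add_nonneg hC0 hkn) hηn
  refine main.trans ?_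
  simp only [S]
  have z1 : tee τ Y₁ (complete n) ((n : ℝ) - 2) ∅ = 0 := by
    rw [tee, inter_empty, card_empty, Nat.cast_zero, mul_zero, zero_add]
    split_ifs
    · rw [cube_start hn4, mul_zero, add_zero]
      exact sum_eq_zero fun e he => by rw [zeta_start hn4 (mem_sdiff.1 he).1]; norm_num
    · rfl
  rw [z1, cube_start hn4, mul_zero, zero_add]
  have hst := hAb.start
  set N : ℝ := (n : ℝ) * Real.sqrt n with hN
  have hN0 : 0 ≤ N := by positivity
  have hYP : Y₁ ^ P ≤ (n : ℝ) ^ (1 / 8 : ℝ) := by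
    rw [hY₁, ← Real.rpow_natCast, ← Real.rpow_mul hn0.le]
    refine le_of_eq ?_
    congr 1
    rw [hτ]; field_simp
  have c1 : Cy (complete n) ∅ ((n : ℝ) - 2) ≤ δ / 3 * N := by
    have h1 : Cy (complete n) ∅ ((n : ℝ) - 2) ≤ K * (n : ℝ) ^ (11 / 8 : ℝ) := by
      simp only [hCy]
      refine (sum_le_sum (g := fun _ => 2 * (P : ℝ) * (4 ^ P * (n : ℝ) ^ (11 / 8 : ℝ)))
        fun q hq => ?_).trans (le_of_eq ?_)
      · refine mul_le_mul ?_ (cyc_start_le (hqP q hq) hn4 (by linarith) hYP)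
          (cyc_nonneg q hY0 _ _ _) (by positivity)
        have : ((2 * q + 4 : ℕ) : ℝ) ≤ ((2 * P : ℕ) : ℝ) :=
          Nat.cast_le.2 (by have := hqP q hq; omega)
        push_cast at this ⊢
        exact this
      · rw [sum_const, card_range, nsmul_eq_mul, hK]; ring
    have h2 : (n : ℝ) ^ (11 / 8 : ℝ) * (n : ℝ) ^ (1 / 8 : ℝ) = N := by
      rw [hN, ← Real.rpow_add hn0, Real.sqrt_eq_rpow]
      conv_rhs => arg 1; rw [← Real.rpow_one (n : ℝ)]
      rw [← Real.rpow_add hn0]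
      norm_num
    rw [div_le_iff₀ hδ] at h8
    refine h1.trans ?_
    rw [← h2]
    have := mul_le_mul_of_nonneg_left h8 (Real.rpow_nonneg hn0.le (11 / 8 : ℝ))
    linarith
  have c2 : k₁ * Ab (complete n) ∅ ((n : ℝ) - 2) (fun _ => 0) ≤ δ / 3 * N := by
    refine (mul_le_mul_of_nonneg_left hst hk₁0).trans ?_
    rw [← mul_assoc]
    refine mul_le_mul_of_nonneg_right ?_ hN0
    rw [hk₁, div_mul_eq_mul_div, div_le_iff₀ (by positivity)]
    rw [div_le_iff₀ (by positivity)] at hk2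
    linarith
  have c3 : η * Ab (complete n) ∅ ((n : ℝ) - 2) (fun _ => 0) ≤ δ / 3 * N := by
    refine (mul_le_mul_of_nonneg_left hst hη0.le).trans ?_
    rw [← mul_assoc]
    refine mul_le_mul_of_nonneg_right ?_ hN0
    rw [hη, div_mul_eq_mul_div, div_le_iff₀ (by positivity), hR]
    nlinarith
  linarith

end Vale.Agent.P046.Limit.A2
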